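import Vale.Agent.P147.D3.Base

/-! An abstract avoidance estimate: a walk with local limit bound `C/(n+1)` and summable expected
number of contacts avoids contacts with subexponentially small probability along powers. -/

open MeasureTheory Filter
open scoped ENNReal

namespace Vale.Agent.P147.D3

section abs
variable {S X : Type*} [AddCommGroup S] {w : X → ℝ≥0∞} {s : X → S} {c : S → X → Prop}

lemma aK_mono' {f g : S → ℝ≥0∞} (h : f ≤ g) : aK w s f ≤ aK w s g := by
  intro y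
  exact ENNReal.tsum_le_tsum fun x => by gcongr; exact h _

lemma aN_mono' {f g : S → ℝ≥0∞} (h : f ≤ g) : aN w s c f ≤ aN w s c g := by
  intro y
  refine ENNReal.tsum_le_tsum fun x => ?_
  split_ifs
  · exact le_rfl
  · gcongr
    exact h _

lemma aK_add' (f g : S → ℝ≥0∞) : aK w s (f + g) = aK w s f + aK w s g := by
  funext y
  simp only [aK, Pi.add_apply]
  rw [← ENNReal.tsum_add]
  exact tsum_congr fun x => by rw [mul_add]

lemma aN_add' (f g : S → ℝ≥0∞) : aN w s c (f + g) = aN w s c f + aN w s c g := by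
  funext y
  simp only [aN, Pi.add_apply]
  rw [← ENNReal.tsum_add]
  refine tsum_congr fun x => ?_
  split_ifs
  · rw [add_zero]
  · rw [mul_add]

lemma aK_smul' (a : ℝ≥0∞) (f : S → ℝ≥0∞) :
    aK w s (fun y => a * f y) = fun y => a * aK w s f y := by
  funext y
  simp only [aK]
  rw [← ENNReal.tsum_mul_left]
  exact tsum_congr fun x => by ring

lemma aN_smul' (a : ℝ≥0∞) (f : S → ℝ≥0∞) :
    aN w s c (fun y => a * f y) = fun y => a * aN w s c f y := by
  funext y
  simp only [aN]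
  rw [← ENNReal.tsum_mul_left]
  refine tsum_congr fun x => ?_
  split_ifs
  · rw [mul_zero]
  · ring

lemma aK_eq_aN_add_aD (f : S → ℝ≥0∞) : aK w s f = aN w s c f + aD w s c f := by
  funext y
  simp only [aK, aN, aD, Pi.add_apply]
  rw [← ENNReal.tsum_add]
  refine tsum_congr fun x => ?_
  split_ifs
  · rw [zero_add]
  · rw [add_zero]

lemma aN_le_aK (f : S → ℝ≥0∞) : aN w s c f ≤ aK w s f := by
  rw [aK_eq_aN_add_aD (c := c)]
  exact le_self_add

lemma aK_one' (hw : ∑' x, w x = 1) : aK w s 1 = 1 := by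
  funext y
  simp only [aK, Pi.one_apply, mul_one, hw]

lemma aN_one_le (hw : ∑' x, w x = 1) : aN w s c 1 ≤ 1 := (aN_le_aK _).trans (aK_one' hw).le

lemma aN_iter_mono {f g : S → ℝ≥0∞} (h : f ≤ g) (n : ℕ) :
    (aN w s c)^[n] f ≤ (aN w s c)^[n] g := by
  induction n with
  | zero => exact h
  | succ n ih =>
    rw [Function.iterate_succ_apply', Function.iterate_succ_apply']
    exact aN_mono' ih

lemma aK_iter_mono {f g : S → ℝ≥0∞} (h : f ≤ g) (n : ℕ) :
    (aK w s)^[n] f ≤ (aK w s)^[n] g := by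
  induction n with
  | zero => exact h
  | succ n ih =>
    rw [Function.iterate_succ_apply', Function.iterate_succ_apply']
    exact aK_mono' ih

lemma aN_iter_le_aK_iter (f : S → ℝ≥0∞) (n : ℕ) :
    (aN w s c)^[n] f ≤ (aK w s)^[n] f := by
  induction n with
  | zero => exact le_rfl
  | succ n ih =>
    rw [Function.iterate_succ_apply', Function.iterate_succ_apply']
    exact (aN_le_aK _).trans (aK_mono' ih)

lemma aN_iter_add (f g : S → ℝ≥0∞) (n : ℕ) :
    (aN w s c)^[n] (f + g) = (aN w s c)^[n] f + (aN w s c)^[n] g := by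
  induction n with
  | zero => rfl
  | succ n ih =>
    rw [Function.iterate_succ_apply', Function.iterate_succ_apply',
      Function.iterate_succ_apply', ih, aN_add']

lemma aK_iter_add (f g : S → ℝ≥0∞) (n : ℕ) :
    (aK w s)^[n] (f + g) = (aK w s)^[n] f + (aK w s)^[n] g := by
  induction n with
  | zero => rfl
  | succ n ih =>
    rw [Function.iterate_succ_apply', Function.iterate_succ_apply',
      Function.iterate_succ_apply', ih, aK_add']

lemma aN_iter_smul (a : ℝ≥0∞) (f : S → ℝ≥0∞) (n : ℕ) :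
    (aN w s c)^[n] (fun y => a * f y) = fun y => a * ((aN w s c)^[n] f) y := by
  induction n with
  | zero => rfl
  | succ n ih =>
    rw [Function.iterate_succ_apply', Function.iterate_succ_apply', ih, aN_smul']

lemma aK_iter_smul (a : ℝ≥0∞) (f : S → ℝ≥0∞) (n : ℕ) :
    (aK w s)^[n] (fun y => a * f y) = fun y => a * ((aK w s)^[n] f) y := by
  induction n with
  | zero => rfl
  | succ n ih =>
    rw [Function.iterate_succ_apply', Function.iterate_succ_apply', ih, aK_smul']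

lemma aK_iter_one (hw : ∑' x, w x = 1) (n : ℕ) : (aK w s)^[n] 1 = 1 := by
  induction n with
  | zero => rfl
  | succ n ih => rw [Function.iterate_succ_apply', ih, aK_one' hw]

/-- Probability of no contact during `i` steps. -/
noncomputable def sA (w : X → ℝ≥0∞) (s : X → S) (c : S → X → Prop) (i : ℕ) : S → ℝ≥0∞ :=
  (aN w s c)^[i] 1

lemma sA_succ (i : ℕ) : sA w s c (i + 1) = aN w s c (sA w s c i) :=
  Function.iterate_succ_apply' _ _ _

lemma sA_add (m n : ℕ) : sA w s c (m + n) = (aN w s c)^[m] (sA w s c n) :=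
  Function.iterate_add_apply _ _ _ _

lemma sA_anti (hw : ∑' x, w x = 1) : Antitone (sA w s c) := by
  refine antitone_nat_of_succ_le fun n => ?_
  rw [sA_add n 1]
  exact aN_iter_mono (aN_one_le hw) n

lemma sA_le_one (hw : ∑' x, w x = 1) (i : ℕ) (y : S) : sA w s c i y ≤ 1 :=
  sA_anti (w := w) (s := s) (c := c) hw (Nat.zero_le i) y

/-- Probability of a contact during `i` steps. -/
noncomputable def sB (w : X → ℝ≥0∞) (s : X → S) (c : S → X → Prop) : ℕ → S → ℝ≥0∞
  | 0 => 0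
  | i + 1 => aD w s c (sA w s c i) + aK w s (sB w s c i)

lemma sA_add_sB (hw : ∑' x, w x = 1) (i : ℕ) : sA w s c i + sB w s c i = 1 := by
  induction i with
  | zero => exact add_zero _
  | succ i ih =>
    rw [sA_succ, sB, ← add_assoc, ← aK_eq_aN_add_aD, ← aK_add', ih, aK_one' hw]

lemma sB_mono (hw : ∑' x, w x = 1) {i j : ℕ} (hij : i ≤ j) (y : S) :
    sB w s c i y ≤ sB w s c j y := by
  have h1 := congrFun (sA_add_sB (s := s) (c := c) hw i) y
  have h2 := congrFun (sA_add_sB (s := s) (c := c) hw j) y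
  have h3 := sA_anti (s := s) (c := c) hw hij y
  simp only [Pi.add_apply, Pi.one_apply] at h1 h2
  have h4 : sA w s c i y ≠ ∞ := ((sA_le_one hw i y).trans_lt ENNReal.one_lt_top).ne
  have h5 : sA w s c i y + sB w s c i y ≤ sA w s c i y + sB w s c j y := by
    rw [h1, ← h2]
    gcongr
  exact (ENNReal.add_le_add_iff_left h4).1 h5

/-- Expected number of first contacts. -/
noncomputable def sT (w : X → ℝ≥0∞) (s : X → S) (c : S → X → Prop) (k : ℕ) : ℝ≥0∞ :=
  ∑' y, aD w s c (sA w s c k) y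

lemma aD_mono' {f g : S → ℝ≥0∞} (h : f ≤ g) : aD w s c f ≤ aD w s c g := by
  intro y
  refine ENNReal.tsum_le_tsum fun x => ?_
  split_ifs
  · gcongr
    exact h _
  · exact le_rfl

lemma sT_anti (hw : ∑' x, w x = 1) : Antitone (sT w s c) := fun _ _ h =>
  ENNReal.tsum_le_tsum fun y => aD_mono' (sA_anti hw h) y

lemma window {C : ℝ≥0∞}
    (hK : ∀ (n : ℕ) (f : S → ℝ≥0∞) (y : S), ((aK w s)^[n] f) y ≤ C / (n + 1) * ∑' z, f z)
    (L T : ℕ) (y : S) :
    ((aK w s)^[T] (sB w s c L)) y ≤ C / (T + 1) * ∑ k ∈ Finset.range L, sT w s c k := by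
  induction L generalizing T with
  | zero =>
    have h := hK T (0 : S → ℝ≥0∞) y
    simpa [sB] using h
  | succ L ih =>
    rw [sB, aK_iter_add, Finset.sum_range_succ, mul_add, add_comm, Pi.add_apply]
    refine add_le_add ?_ (hK T _ y)
    rw [← Function.iterate_succ_apply]
    refine (ih (T + 1)).trans ?_
    gcongr
    exact le_self_add

lemma tsum_iInf_anti {ι : Type*} {f : ℕ → ι → ℝ≥0∞} (hf : Antitone f) (h0 : ∑' a, f 0 a ≠ ∞) :
    ∑' a, ⨅ n, f n a = ⨅ n, ∑' a, f n a := by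
  let _ : MeasurableSpace ι := ⊤
  have h := lintegral_iInf (μ := (Measure.count : Measure ι)) (f := f)
    (fun n => measurable_from_top) hf (by rwa [lintegral_count])
  simpa only [lintegral_count] using h

lemma sT_iInf (hw : ∑' x, w x = 1) (hD : ∑' y, aD w s c 1 y ≠ ∞)
    (h0 : ∀ y, ⨅ k, sA w s c k y = 0) : ⨅ k, sT w s c k = 0 := by
  have hwx : ∀ x, w x ≤ 1 := fun x => (ENNReal.le_tsum x).trans hw.le
  unfold sT
  rw [← tsum_iInf_anti (f := fun k y => aD w s c (sA w s c k) y)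
    (fun i j h => aD_mono' (sA_anti hw h)) hD]
  rw [ENNReal.tsum_eq_zero]
  intro y
  simp only [aD]
  rw [← tsum_iInf_anti, ENNReal.tsum_eq_zero]
  · intro x
    by_cases hc : c y x
    · simp only [if_pos hc]
      refine le_antisymm ?_ bot_le
      rw [← h0 (y + s x)]
      refine iInf_mono fun k => ?_
      calc w x * sA w s c k (y + s x) ≤ 1 * sA w s c k (y + s x) := by gcongr; exact hwx x
        _ = _ := one_mul _
    · simp only [if_neg hc]
      exact iInf_const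
  · intro i j h x
    simp only
    split_ifs
    · gcongr
      exact sA_anti hw h _
    · exact le_rfl
  · refine ne_top_of_le_ne_top (ENNReal.one_ne_top) (le_trans ?_ hw.le)
    refine ENNReal.tsum_le_tsum fun x => ?_
    split_ifs
    · calc w x * sA w s c 0 (y + s x) ≤ w x * 1 := by gcongr; exact sA_le_one hw 0 _
        _ = _ := mul_one _
    · exact bot_le

lemma ces {a : ℕ → ℝ≥0∞} (ha : Antitone a) (h0 : a 0 ≠ ∞) (hinf : ⨅ k, a k = 0) {C : ℝ≥0∞}
    (hC : C ≠ ∞) (M : ℕ) {δ : ℝ≥0∞} (hδ : δ ≠ 0) :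
    ∃ T₀ : ℕ, ∀ T, T₀ ≤ T → C / (T + 1) * ∑ k ∈ Finset.range (M * T), a k ≤ δ := by
  have hD1 : C * M + 1 ≠ ∞ := by
    simp [ENNReal.mul_ne_top hC (ENNReal.natCast_ne_top M)]
  have hD0 : C * M + 1 ≠ 0 := by simp
  have hδ2 : δ / 2 ≠ 0 := (ENNReal.half_pos hδ).ne'
  set ε := δ / 2 / (C * M + 1) with hε
  have hε0 : 0 < ε := ENNReal.div_pos hδ2 hD1
  have hCε : C * M * ε ≤ δ / 2 := by
    calc C * M * ε ≤ (C * M + 1) * ε := by gcongr; exact le_self_add
      _ = δ / 2 := by rw [hε, ENNReal.mul_div_cancel hD0 hD1]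
  obtain ⟨m, hm⟩ : ∃ m, a m < ε := by
    rw [← iInf_lt_iff, hinf]
    exact hε0
  have hsum : ∀ N, ∑ k ∈ Finset.range N, a k ≤ m * a 0 + N * ε := by
    intro N
    calc ∑ k ∈ Finset.range N, a k
        ≤ ∑ k ∈ Finset.range N, ((if k < m then a 0 else 0) + ε) := by
          refine Finset.sum_le_sum fun k _ => ?_
          by_cases hk : k < m
          · rw [if_pos hk]
            exact (ha (Nat.zero_le k)).trans le_self_add
          · rw [if_neg hk, zero_add]
            exact (ha (not_lt.1 hk)).trans hm.le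
      _ = (∑ k ∈ Finset.range N, (if k < m then a 0 else 0)) + N * ε := by
          rw [Finset.sum_add_distrib, Finset.sum_const, Finset.card_range, nsmul_eq_mul]
      _ ≤ m * a 0 + N * ε := by
          gcongr
          rw [← Finset.sum_filter, Finset.sum_const, nsmul_eq_mul]
          gcongr
          calc (Finset.filter (fun k => k < m) (Finset.range N)).card
              ≤ (Finset.range m).card := by
                refine Finset.card_le_card fun k hk => ?_
                rw [Finset.mem_filter] at hk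
                exact Finset.mem_range.2 hk.2
            _ = m := Finset.card_range m
  obtain ⟨T₀, hT₀⟩ := ENNReal.exists_nat_gt (r := C * (m * a 0) / (δ / 2))
    (ENNReal.div_ne_top (ENNReal.mul_ne_top hC
      (ENNReal.mul_ne_top (ENNReal.natCast_ne_top m) h0)) hδ2)
  refine ⟨T₀, fun T hT => ?_⟩
  have hT1 : ((T : ℝ≥0∞) + 1) ≠ 0 := by simp
  have hT2 : ((T : ℝ≥0∞) + 1) ≠ ∞ := by simp
  calc C / (T + 1) * ∑ k ∈ Finset.range (M * T), a k
      ≤ C / (T + 1) * (m * a 0 + (M * T : ℕ) * ε) := by gcongr; exact hsum _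
    _ = C * (m * a 0) / (T + 1) + C * M * ε * (T / (T + 1)) := by
        rw [mul_add, ENNReal.div_eq_inv_mul, ENNReal.div_eq_inv_mul, ENNReal.div_eq_inv_mul]
        push_cast
        ring
    _ ≤ δ / 2 + δ / 2 * 1 := by
        refine add_le_add ?_ (mul_le_mul' hCε ?_)
        · refine ENNReal.div_le_of_le_mul ?_
          have h1 : C * (m * a 0) ≤ δ / 2 * T₀ := by
            have := (ENNReal.div_le_iff_le_mul (Or.inl hδ2)
              (Or.inr (ne_bot_of_gt hT₀))).1 hT₀.le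
            exact this.trans_eq (mul_comm _ _)
          refine h1.trans ?_
          gcongr
          calc (T₀ : ℝ≥0∞) ≤ T := by exact_mod_cast hT
            _ ≤ T + 1 := le_self_add
        · refine ENNReal.div_le_of_le_mul ?_
          rw [one_mul]
          exact le_self_add
    _ = δ := by rw [mul_one, ENNReal.add_halves]

lemma case_one (hw : ∑' x, w x = 1) {w0 : S} (h0 : ⨅ k, sA w s c k w0 ≠ 0) :
    ∃ y, ∀ k, 1 / 2 ≤ sA w s c k y := by
  classical
  by_contra hcon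
  push Not at hcon
  have hwx : ∀ x, w x ≤ 1 := fun x => (ENNReal.le_tsum x).trans hw.le
  set A : S → ℝ≥0∞ := fun y => ⨅ k, sA w s c k y with hA
  have hstep : A ≤ aN w s c A := by
    intro y
    have h1 : aN w s c A y =
        ∑' x, ⨅ k, (if c y x then 0 else w x * sA w s c k (y + s x)) := by
      unfold aN
      refine tsum_congr fun x => ?_
      split_ifs
      · exact iInf_const.symm
      · by_cases hx : w x = 0
        · simp [hx]
        · exact ENNReal.mul_iInf_of_ne hx ((hwx x).trans_lt ENNReal.one_lt_top).ne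
    rw [h1, tsum_iInf_anti]
    · refine le_iInf fun k => ?_
      refine (iInf_le _ (k + 1)).trans ?_
      rw [sA_succ]
      exact le_rfl
    · intro i j h x
      simp only
      split_ifs
      · exact le_rfl
      · gcongr
        exact sA_anti hw h _
    · refine ne_top_of_le_ne_top (ENNReal.one_ne_top) (le_trans ?_ hw.le)
      refine ENNReal.tsum_le_tsum fun x => ?_
      split_ifs
      · exact bot_le
      · calc w x * sA w s c 0 (y + s x) ≤ w x * 1 := by gcongr; exact sA_le_one hw 0 _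
          _ = _ := mul_one _
  have hiter : ∀ k, A ≤ (aN w s c)^[k] A := by
    intro k
    induction k with
    | zero => exact le_rfl
    | succ k ih =>
      rw [Function.iterate_succ_apply]
      exact ih.trans (aN_iter_mono hstep k)
  have hhalf : A ≤ fun y => 1 / 2 * (1 : S → ℝ≥0∞) y := by
    intro y
    obtain ⟨k, hk⟩ := hcon y
    show A y ≤ 1 / 2 * 1
    rw [mul_one]
    exact (iInf_le _ k).trans hk.le
  have h3 : ∀ y, A y ≤ 1 / 2 * A y := by
    intro y
    have h4 : (1 / 2 : ℝ≥0∞) * A y = ⨅ k, 1 / 2 * sA w s c k y :=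
      ENNReal.mul_iInf_of_ne (by simp) (by simp)
    rw [h4]
    refine le_iInf fun k => ?_
    have h5 := (hiter k).trans (aN_iter_mono hhalf k)
    rw [aN_iter_smul] at h5
    exact h5 y
  have h6 : A w0 ≠ ∞ := by
    refine ne_top_of_le_ne_top ENNReal.one_ne_top ((iInf_le _ 0).trans ?_)
    exact sA_le_one hw 0 w0
  have h7 := h3 w0
  rw [one_div, mul_comm, ← div_eq_mul_inv] at h7
  exact absurd h7 (not_le.2 (ENNReal.half_lt_self h0 h6))

lemma sA_ge (hw : ∑' x, w x = 1) {i : ℕ} {y : S} {t u : ℝ≥0∞} (htu : t + u = 1) (hu : u ≠ ∞)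
    (hB : sB w s c i y ≤ u) : t ≤ sA w s c i y := by
  have h1 := congrFun (sA_add_sB (s := s) (c := c) hw i) y
  simp only [Pi.add_apply, Pi.one_apply] at h1
  have h2 : t + u ≤ sA w s c i y + u := by
    rw [htu, ← h1]
    gcongr
  exact (ENNReal.add_le_add_iff_right hu).1 h2

lemma eighth_add : (7 / 8 : ℝ≥0∞) + 1 / 8 = 1 := by
  rw [ENNReal.div_add_div_same]
  norm_num
  exact ENNReal.div_self (by norm_num) (by norm_num)

lemma claim (hw : ∑' x, w x = 1) {C : ℝ≥0∞}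
    (hK : ∀ (n : ℕ) (f : S → ℝ≥0∞) (y : S), ((aK w s)^[n] f) y ≤ C / (n + 1) * ∑' z, f z)
    {Λ T : ℕ} (hΛ : 2 ≤ Λ)
    (hT : C / (T + 1) * ∑ k ∈ Finset.range (Λ ^ 2 * T), sT w s c k ≤ 1 / 64) {y : S}
    (hy : sB w s c (Λ * T) y ≤ 1 / 8) :
    1 / 2 ≤ ((aN w s c)^[(Λ - 1) * T]
      ({z | sB w s c (Λ * (Λ * T)) z ≤ 1 / 8}.indicator 1)) y := by
  set G : Set S := {z | sB w s c (Λ * (Λ * T)) z ≤ 1 / 8} with hG
  set n := (Λ - 1) * T with hn
  have hnT : T ≤ n := by
    calc T = 1 * T := (one_mul T).symm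
      _ ≤ (Λ - 1) * T := Nat.mul_le_mul_right _ (by omega)
  have hnT2 : n ≤ Λ * T := Nat.mul_le_mul_right _ (by omega)
  have h1 : (7 / 8 : ℝ≥0∞) ≤ ((aN w s c)^[n] 1) y :=
    sA_ge hw eighth_add (by simp) ((sB_mono hw hnT2 y).trans hy)
  have h2 : (1 : S → ℝ≥0∞) ≤ G.indicator 1 + fun z => 8 * sB w s c (Λ * (Λ * T)) z := by
    intro z
    by_cases hz : z ∈ G
    · rw [Pi.add_apply, Set.indicator_of_mem hz]
      exact le_self_add
    · have h3 : 1 / 8 < sB w s c (Λ * (Λ * T)) z := not_le.1 hz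
      refine le_trans ?_ le_add_self
      calc (1 : ℝ≥0∞) = 8 * (1 / 8) := by
            rw [one_div, ENNReal.mul_inv_cancel (by norm_num) (by norm_num)]
        _ ≤ 8 * sB w s c (Λ * (Λ * T)) z := by gcongr
  have h3 := (aN_iter_mono (w := w) (s := s) (c := c) h2 n) y
  rw [aN_iter_add, Pi.add_apply] at h3
  have h4 : ((aN w s c)^[n] fun z => 8 * sB w s c (Λ * (Λ * T)) z) y ≤ 1 / 8 := by
    refine (aN_iter_le_aK_iter _ n y).trans ?_
    rw [aK_iter_smul]
    show 8 * ((aK w s)^[n] (sB w s c (Λ * (Λ * T)))) y ≤ 1 / 8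
    calc 8 * ((aK w s)^[n] (sB w s c (Λ * (Λ * T)))) y
        ≤ 8 * (C / (n + 1) * ∑ k ∈ Finset.range (Λ * (Λ * T)), sT w s c k) := by
          gcongr
          exact window hK _ _ _
      _ ≤ 8 * (C / (T + 1) * ∑ k ∈ Finset.range (Λ ^ 2 * T), sT w s c k) := by
          rw [show Λ * (Λ * T) = Λ ^ 2 * T by ring]
          gcongr
      _ ≤ 8 * (1 / 64) := by gcongr
      _ = 1 / 8 := by
          rw [show (64 : ℝ≥0∞) = 8 * 8 by norm_num, one_div, one_div,
            ENNReal.mul_inv (by norm_num) (by norm_num), ← mul_assoc,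
            ENNReal.mul_inv_cancel (by norm_num) (by norm_num), one_mul]
  have h5 : (7 / 8 : ℝ≥0∞) ≤ ((aN w s c)^[n] (G.indicator 1)) y + 1 / 8 :=
    h1.trans (h3.trans (by gcongr))
  have h6 : (1 / 2 : ℝ≥0∞) + 1 / 8 ≤ 7 / 8 := by
    rw [show (1 / 2 : ℝ≥0∞) = 4 / 8 by
      rw [ENNReal.div_eq_div_iff] <;> norm_num, ENNReal.div_add_div_same]
    gcongr
    norm_num
  exact (ENNReal.add_le_add_iff_right (by simp)).1 (h6.trans h5)

/-- A -/
theorem abs_avoid {w : X → ℝ≥0∞} {s : X → S} {c : S → X → Prop} (hw : ∑' x, w x = 1)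
    {C : ℝ≥0∞} (hC : C ≠ ∞)
    (hK : ∀ (n : ℕ) (f : S → ℝ≥0∞) (y : S), ((aK w s)^[n] f) y ≤ C / (n + 1) * ∑' z, f z)
    (hD : ∑' y, aD w s c 1 y ≠ ∞) {Λ : ℕ} (hΛ : 2 ≤ Λ) :
    ∃ y : S, ∀ j : ℕ, (1 / 2 : ℝ≥0∞) ^ (j + 1) ≤ ((aN w s c)^[Λ ^ j] 1) y := by
  have hhalf : ∀ j : ℕ, (1 / 2 : ℝ≥0∞) ^ (j + 1) ≤ 1 / 2 := by
    intro j
    rw [pow_succ]
    calc (1 / 2 : ℝ≥0∞) ^ j * (1 / 2) ≤ 1 * (1 / 2) := by
          gcongr
          exact pow_le_one' (by simp) j
      _ = 1 / 2 := one_mul _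
  by_cases h0 : ∀ y, ⨅ k, sA w s c k y = 0
  swap
  · push Not at h0
    obtain ⟨w0, hw0⟩ := h0
    obtain ⟨y, hy⟩ := case_one hw hw0
    exact ⟨y, fun j => (hhalf j).trans (hy _)⟩
  have hinf := sT_iInf hw hD h0
  have hT0 : sT w s c 0 ≠ ∞ := hD
  obtain ⟨T₀, hT₀⟩ := ces (sT_anti (s := s) (c := c) hw) hT0 hinf hC (Λ ^ 2) (δ := 1 / 64)
    (by simp)
  obtain ⟨j₀, hj₀⟩ : ∃ j₀ : ℕ, T₀ ≤ Λ ^ j₀ := ⟨T₀, (Nat.lt_pow_self (by omega)).le⟩
  have hclaim : ∀ j, j₀ ≤ j → ∀ y, sB w s c (Λ ^ (j + 1)) y ≤ 1 / 8 →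
      1 / 2 ≤ ((aN w s c)^[(Λ - 1) * Λ ^ j]
        ({z | sB w s c (Λ ^ (j + 2)) z ≤ 1 / 8}.indicator 1)) y := by
    intro j hj y hy
    have hTj : T₀ ≤ Λ ^ j := hj₀.trans (Nat.pow_le_pow_right (by omega) hj)
    have h1 := hT₀ (Λ ^ j) hTj
    have h2 := claim (T := Λ ^ j) hw hK hΛ h1 (y := y) (by rw [← pow_succ']; exact hy)
    rw [show Λ * (Λ * Λ ^ j) = Λ ^ (j + 2) by ring] at h2
    exact h2
  have hmain : ∀ k j, j₀ ≤ j → ∀ y, sB w s c (Λ ^ (j + 1)) y ≤ 1 / 8 →
      (1 / 2 : ℝ≥0∞) ^ (k + 1) ≤ sA w s c (Λ ^ (j + k + 1) - Λ ^ j) y := by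
    intro k
    induction k with
    | zero =>
      intro j hj y hy
      have h1 : (7 / 8 : ℝ≥0∞) ≤ sA w s c (Λ ^ (j + 1)) y := sA_ge hw eighth_add (by simp) hy
      calc (1 / 2 : ℝ≥0∞) ^ (0 + 1) = 1 / 2 := by rw [zero_add, pow_one]
        _ = 4 / 8 := by rw [ENNReal.div_eq_div_iff] <;> norm_num
        _ ≤ 7 / 8 := by gcongr; norm_num
        _ ≤ sA w s c (Λ ^ (j + 1)) y := h1
        _ ≤ sA w s c (Λ ^ (j + 0 + 1) - Λ ^ j) y := sA_anti hw (by simp) y
    | succ k ih =>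
      intro j hj y hy
      have e1 : Λ ^ (j + (k + 1) + 1) - Λ ^ j =
          (Λ - 1) * Λ ^ j + (Λ ^ (j + 1 + k + 1) - Λ ^ (j + 1)) := by
        have h1 : Λ ^ (j + 1) ≤ Λ ^ (j + 1 + k + 1) := Nat.pow_le_pow_right (by omega) (by omega)
        have h2 : (Λ - 1) * Λ ^ j + Λ ^ j = Λ ^ (j + 1) := by
          rw [pow_succ, mul_comm (Λ ^ j) Λ, ← Nat.succ_mul]
          congr 1
          omega
        have h3 : j + (k + 1) + 1 = j + 1 + k + 1 := by omega
        rw [h3]
        omega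
      rw [e1, sA_add]
      have h1 : (fun z => (1 / 2 : ℝ≥0∞) ^ (k + 1) *
          ({z | sB w s c (Λ ^ (j + 2)) z ≤ 1 / 8}.indicator (1 : S → ℝ≥0∞)) z) ≤
          sA w s c (Λ ^ (j + 1 + k + 1) - Λ ^ (j + 1)) := by
        intro z
        by_cases hz : z ∈ {z | sB w s c (Λ ^ (j + 2)) z ≤ 1 / 8}
        · show _ * _ ≤ _
          rw [Set.indicator_of_mem hz, Pi.one_apply, mul_one]
          exact ih (j + 1) (by omega) z hz
        · show _ * _ ≤ _
          rw [Set.indicator_of_notMem hz, mul_zero]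
          exact bot_le
      have h2 := aN_iter_mono (w := w) (s := s) (c := c) h1 ((Λ - 1) * Λ ^ j) y
      rw [aN_iter_smul] at h2
      refine le_trans ?_ h2
      rw [pow_succ (1 / 2 : ℝ≥0∞) (k + 1)]
      show _ ≤ (1 / 2 : ℝ≥0∞) ^ (k + 1) * _
      gcongr
      exact hclaim j hj y hy
  obtain ⟨y₀, hy₀⟩ : ∃ y₀, sB w s c (Λ ^ (j₀ + 1)) y₀ ≤ 1 / 8 := by
    by_contra hcon
    push Not at hcon
    obtain ⟨T₁, hT₁⟩ := ces (a := fun k => if k = 0 then
        ∑ k ∈ Finset.range (Λ ^ (j₀ + 1)), sT w s c k else 0) (C := C) (by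
        refine antitone_nat_of_succ_le fun n => ?_
        simp) (by
        simp only [if_true]
        refine ENNReal.sum_ne_top.2 fun k _ => ?_
        exact ne_top_of_le_ne_top hT0 (sT_anti hw (Nat.zero_le k))) (by
        refine le_antisymm ((iInf_le _ 1).trans (by simp)) bot_le) hC 1 (δ := 1 / 16) (by simp)
    have h1 := hT₁ (T₁ + 1) (by omega)
    rw [one_mul, Finset.sum_range_succ', Finset.sum_eq_zero (by simp), zero_add, if_pos rfl] at h1
    have h2 := (window hK (Λ ^ (j₀ + 1)) (T₁ + 1) 0).trans h1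
    have h3 : (fun z => (1 / 8 : ℝ≥0∞) * (1 : S → ℝ≥0∞) z) ≤ sB w s c (Λ ^ (j₀ + 1)) := by
      intro z
      show (1 / 8 : ℝ≥0∞) * 1 ≤ _
      rw [mul_one]
      exact (hcon z).le
    have h4 := aK_iter_mono (w := w) (s := s) h3 (T₁ + 1) 0
    rw [aK_iter_smul, aK_iter_one hw] at h4
    have h5 : (1 / 8 : ℝ≥0∞) ≤ 1 / 16 := by
      refine le_trans ?_ (h4.trans h2)
      show (1 / 8 : ℝ≥0∞) ≤ 1 / 8 * 1
      rw [mul_one]
    rw [one_div, one_div, ENNReal.inv_le_inv] at h5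
    norm_num at h5
  refine ⟨y₀, fun i => ?_⟩
  rcases le_or_gt j₀ i with hi | hi
  · obtain ⟨k, rfl⟩ := Nat.exists_eq_add_of_le hi
    have h1 := hmain k j₀ le_rfl y₀ hy₀
    have h2 : Λ ^ (j₀ + k) ≤ Λ ^ (j₀ + k + 1) - Λ ^ j₀ := by
      have h3 : Λ ^ j₀ ≤ Λ ^ (j₀ + k) := Nat.pow_le_pow_right (by omega) (by omega)
      have h4 : 2 * Λ ^ (j₀ + k) ≤ Λ ^ (j₀ + k + 1) := by
        rw [pow_succ, mul_comm]
        exact Nat.mul_le_mul_left _ hΛ
      omega
    calc (1 / 2 : ℝ≥0∞) ^ (j₀ + k + 1) ≤ (1 / 2) ^ (k + 1) :=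
          pow_le_pow_right_of_le_one' (by simp) (by omega)
      _ ≤ _ := h1
      _ ≤ _ := sA_anti hw h2 y₀
  · have h1 := hmain 0 j₀ le_rfl y₀ hy₀
    have h2 : Λ ^ i ≤ Λ ^ (j₀ + 0 + 1) - Λ ^ j₀ := by
      have h3 : Λ ^ i ≤ Λ ^ j₀ := Nat.pow_le_pow_right (by omega) hi.le
      have h4 : 2 * Λ ^ j₀ ≤ Λ ^ (j₀ + 0 + 1) := by
        rw [add_zero, pow_succ, mul_comm]
        exact Nat.mul_le_mul_left _ hΛ
      omega
    calc (1 / 2 : ℝ≥0∞) ^ (i + 1) ≤ 1 / 2 := hhalf i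
      _ = (1 / 2) ^ (0 + 1) := by rw [zero_add, pow_one]
      _ ≤ _ := h1
      _ ≤ _ := sA_anti hw h2 y₀

end abs

end Vale.Agent.P147.D3
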