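import Vale.Agent.P147.Bdl.B1

/-! Definitions for the one-sided theorem in dimension three (uniformly elliptic laws). -/

open MeasureTheory Filter
open scoped ENNReal

namespace Vale.Agent.P147.D3

section abs

variable {S X : Type*} [AddCommGroup S]

/-- Averaging over one step: step `x` has weight `w x` and displacement `s x`. -/
noncomputable def aK (w : X → ℝ≥0∞) (s : X → S) (f : S → ℝ≥0∞) : S → ℝ≥0∞ :=
  fun y => ∑' x, w x * f (y + s x)

open Classical in
/-- Averaging over one step without contact. -/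
noncomputable def aN (w : X → ℝ≥0∞) (s : X → S) (c : S → X → Prop) (f : S → ℝ≥0∞) :
    S → ℝ≥0∞ :=
  fun y => ∑' x, if c y x then 0 else w x * f (y + s x)

open Classical in
/-- Averaging over one step with contact. -/
noncomputable def aD (w : X → ℝ≥0∞) (s : X → S) (c : S → X → Prop) (f : S → ℝ≥0∞) :
    S → ℝ≥0∞ :=
  fun y => ∑' x, if c y x then w x * f (y + s x) else 0

end abs

variable {d : ℕ}

/-- Pairs of lists of steps. -/
abbrev SM (d : ℕ) : Type := FreeMonoid (Dir d) × FreeMonoid (Dir d)

/-- First component as a list. -/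
def SM.a (x : SM d) : List (Dir d) := x.1.toList

/-- Second component as a list. -/
def SM.b (x : SM d) : List (Dir d) := x.2.toList

/-- Displacement of the difference. -/
def SM.disp (x : SM d) : Site d := dsp x.b - dsp x.a

/-- The grading of pairs of upward paths of the same height. -/
def sG (h : Site d →+ ℤ) : Grading (SM d) := (upG h).prod (upG h)

/-- The paths of the pair avoid each other when started at `0` and `z`. -/
def SDj (z : Site d) (x : SM d) : Prop := Disjoint (exits 0 x.a) (exits z x.b)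

/-- Weight of a pair. -/
noncomputable def WS (μ : Measure (Row d)) (x : SM d) : ℝ≥0∞ := wt μ x.a * wt μ x.b

/-- Irreducible pairs. -/
abbrev SIrr (h : Site d →+ ℤ) : Type := Σ j, (sG h).I j

open Classical in
/-- Total weight of the self-avoiding pairs of height `k` started at `0` and `z`. -/
noncomputable def DS (μ : Measure (Row d)) (h : Site d →+ ℤ) (z : Site d) (k : ℕ) : ℝ≥0∞ :=
  ∑' x : (sG h).G k, WS μ x * (if SDj z (x : SM d) then 1 else 0)

/-- Weights of the irreducible pairs. -/
noncomputable def pw (μ : Measure (Row d)) (h : Site d →+ ℤ) (p : SIrr h) : ℝ≥0∞ := WS μ p.2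

lemma mem_sG {h : Site d →+ ℤ} {k : ℕ} {x : SM d} :
    x ∈ (sG h).G k ↔ x.a ∈ Up h k ∧ x.b ∈ Up h k := by
  simp only [sG, Grading.prod, Set.mem_ofPred_eq, mem_upG]
  rfl

lemma h_sdisp {h : Site d →+ ℤ} {k : ℕ} {x : SM d} (hx : x ∈ (sG h).G k) : h x.disp = 0 := by
  rw [mem_sG] at hx
  rw [SM.disp, map_sub, hx.1.2.2, hx.2.2.2, sub_self]

/-- Displacements of the irreducible pairs, in the kernel of `h`. -/
def sd (h : Site d →+ ℤ) (p : SIrr h) : h.ker :=
  ⟨(p.2 : SM d).disp, by rw [AddMonoidHom.mem_ker]; exact h_sdisp p.2.2.1⟩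

/-- Contacts of the irreducible pairs. -/
def sc (h : Site d →+ ℤ) (z : h.ker) (p : SIrr h) : Prop := ¬ SDj (z : Site d) (p.2 : SM d)

/-- The path stays at or above its starting height and its height is not bounded above. -/
def UpI (h : Site d →+ ℤ) : Set (ℕ → Site d) := StayUp h ∩ {X | ∀ K : ℤ, ∃ n, K ≤ h (X n)}

/-- Uniform ellipticity. -/
def UEll (μ : Measure (Row d)) : Prop := ∃ κ : ℝ, 0 < κ ∧ ∀ᵐ p ∂μ, ∀ u : Dir d, κ ≤ p.1 u

end Vale.Agent.P147.D3
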