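import Vale.Agent.P147.D3.Base

/-! Concentration for the iterates of an averaging operator. -/

open MeasureTheory Filter
open scoped ENNReal

namespace Vale.Agent.P147.D3

section abs

variable {S X : Type*} [AddCommGroup S]

open Classical in
/-- Law of one step. -/
noncomputable def aκ (w : X → ℝ≥0∞) (s : X → S) : Cv S :=
  ⟨fun g => ∑' x, w x * (if g = s x then 1 else 0)⟩

lemma aK_eq (w : X → ℝ≥0∞) (s : X → S) (f : S → ℝ≥0∞) (y : S) :
    aK w s f y = ∑' z, (aκ w s).v z * f (y + z) := by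
  classical
  simp only [aK, aκ]
  calc ∑' x, w x * f (y + s x)
      = ∑' x, ∑' z, w x * (if z = s x then 1 else 0) * f (y + z) := by
        refine tsum_congr fun x => ?_
        rw [tsum_eq_single (s x)]
        · simp
        · intro z hz
          simp [hz]
    _ = ∑' z, ∑' x, w x * (if z = s x then 1 else 0) * f (y + z) := ENNReal.tsum_comm
    _ = _ := by
        refine tsum_congr fun z => ?_
        rw [ENNReal.tsum_mul_right]

omit [AddCommGroup S] in
lemma mass_aκ (w : X → ℝ≥0∞) (s : X → S) : (aκ w s).mass = ∑' x, w x := by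
  classical
  simp only [Cv.mass, aκ]
  rw [ENNReal.tsum_comm]
  refine tsum_congr fun x => ?_
  rw [tsum_eq_single (s x)]
  · simp
  · intro z hz
    simp [hz]

lemma aK_iter_eq (w : X → ℝ≥0∞) (s : X → S) (n : ℕ) (f : S → ℝ≥0∞) (y : S) :
    ((aK w s)^[n] f) y = ∑' z, ((aκ w s) ^ n).v z * f (y + z) := by
  induction n generalizing f y with
  | zero =>
    rw [Function.iterate_zero_apply, pow_zero, Cv.one_def, tsum_eq_single 0]
    · rw [Cv.pt_v_self, one_mul, add_zero]
    · intro z hz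
      rw [Cv.pt_v_ne hz, zero_mul]
  | succ n ih =>
    rw [Function.iterate_succ_apply, ih, pow_succ]
    calc ∑' z, ((aκ w s) ^ n).v z * aK w s f (y + z)
        = ∑' z, ∑' t, ((aκ w s) ^ n).v z * (aκ w s).v (t - z) * f (y + t) := by
          refine tsum_congr fun z => ?_
          rw [aK_eq, ← ENNReal.tsum_mul_left, ← (Equiv.subRight z).tsum_eq]
          refine tsum_congr fun t => ?_
          simp only [Equiv.subRight_apply]
          rw [mul_assoc]
          congr 3
          abel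
      _ = ∑' t, ∑' z, ((aκ w s) ^ n).v z * (aκ w s).v (t - z) * f (y + t) := ENNReal.tsum_comm
      _ = _ := by
          refine tsum_congr fun t => ?_
          rw [ENNReal.tsum_mul_right, Cv.mul_v]

/-- B -/
theorem conc {w : X → ℝ≥0∞} {s : X → S} (hw : ∑' x, w x = 1) {ζ : S}
    (hx : ∀ g : S, ∃ x, s x = ζ + g ∧ w x ≠ 0) {g₁ g₂ : S}
    (hind : ∀ a b a' b' : ℕ, a • g₁ + b • g₂ = a' • g₁ + b' • g₂ → a = a' ∧ b = b') :
    ∃ C : ℝ≥0∞, C ≠ ∞ ∧
      ∀ (n : ℕ) (f : S → ℝ≥0∞) (y : S), ((aK w s)^[n] f) y ≤ C / (n + 1) * ∑' z, f z := by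
  classical
  have hpos : ∀ g : S, (aκ w s).v (ζ + g) ≠ 0 := by
    intro g h0
    obtain ⟨x, hxs, hxw⟩ := hx g
    simp only [aκ] at h0
    rw [ENNReal.tsum_eq_zero] at h0
    have := h0 x
    rw [hxs, if_pos rfl, mul_one] at this
    exact hxw this
  set κ := aκ w s with hκ
  set c := min (min (κ.v ζ) (κ.v (ζ + g₁)))
    (min (κ.v (ζ + g₂)) (κ.v (ζ + (g₁ + g₂)))) with hc
  have hc0 : c ≠ 0 := by
    have e0 : κ.v ζ ≠ 0 := by simpa using hpos 0
    have e1 := hpos g₁
    have e2 := hpos g₂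
    have e3 := hpos (g₁ + g₂)
    rw [hc, ← pos_iff_ne_zero]
    exact lt_min (lt_min (pos_iff_ne_zero.2 e0) (pos_iff_ne_zero.2 e1))
      (lt_min (pos_iff_ne_zero.2 e2) (pos_iff_ne_zero.2 e3))
  have hdom : ∀ z, (Cv.pt ζ c * ((1 + Cv.pt g₁ 1) * (1 + Cv.pt g₂ 1))).v z ≤ κ.v z := by
    intro z
    have e : Cv.pt ζ c * ((1 + Cv.pt g₁ 1) * (1 + Cv.pt g₂ 1)) =
        Cv.pt ζ c + Cv.pt (ζ + g₁) c + (Cv.pt (ζ + g₂) c + Cv.pt (ζ + (g₁ + g₂)) c) := by
      rw [Cv.one_def]
      simp only [mul_add, add_mul, Cv.pt_mul_pt, add_zero, zero_add, mul_one]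
    rw [e]
    simp only [Cv.add_v]
    have hg1 : g₁ ≠ 0 := by
      rintro rfl
      have := hind 0 0 1 0 (by simp)
      omega
    have hg2 : g₂ ≠ 0 := by
      rintro rfl
      have := hind 0 0 0 1 (by simp)
      omega
    have hg12 : g₁ ≠ g₂ := by
      rintro rfl
      have := hind 1 0 0 1 (by simp)
      omega
    have hg3 : g₁ + g₂ ≠ 0 := by
      intro h0
      have := hind 1 1 0 0 (by simpa using h0)
      omega
    have c0 : c ≤ κ.v ζ := (min_le_left _ _).trans (min_le_left _ _)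
    have c1 : c ≤ κ.v (ζ + g₁) := (min_le_left _ _).trans (min_le_right _ _)
    have c2 : c ≤ κ.v (ζ + g₂) := (min_le_right _ _).trans (min_le_left _ _)
    have c3 : c ≤ κ.v (ζ + (g₁ + g₂)) := (min_le_right _ _).trans (min_le_right _ _)
    by_cases z0 : z = ζ
    · subst z0
      rw [Cv.pt_v_self, Cv.pt_v_ne, Cv.pt_v_ne, Cv.pt_v_ne]
      · simpa using c0
      · simpa using hg3
      · simpa using hg2
      · simpa using hg1
    by_cases z1 : z = ζ + g₁
    · subst z1
      rw [Cv.pt_v_self, Cv.pt_v_ne z0, Cv.pt_v_ne, Cv.pt_v_ne]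
      · simpa using c1
      · simpa using hg2
      · simpa using hg12
    by_cases z2 : z = ζ + g₂
    · subst z2
      rw [Cv.pt_v_self, Cv.pt_v_ne z0, Cv.pt_v_ne z1, Cv.pt_v_ne]
      · simpa using c2
      · simpa using hg1
    by_cases z3 : z = ζ + (g₁ + g₂)
    · subst z3
      rw [Cv.pt_v_self, Cv.pt_v_ne z0, Cv.pt_v_ne z1, Cv.pt_v_ne z2]
      simpa using c3
    · rw [Cv.pt_v_ne z0, Cv.pt_v_ne z1, Cv.pt_v_ne z2, Cv.pt_v_ne z3]
      simp
  have hmass : κ.mass = 1 := by rw [hκ, mass_aκ, hw]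
  refine ⟨1 / (4 * c), ?_, fun n f y => ?_⟩
  · rw [one_div]
    exact ENNReal.inv_ne_top.2 (mul_ne_zero (by norm_num) hc0)
  · rw [aK_iter_eq, ← hκ]
    calc ∑' z, (κ ^ n).v z * f (y + z)
        ≤ ∑' z, (1 / (4 * c)) / (n + 1) * f (y + z) := by
          refine ENNReal.tsum_le_tsum fun z => ?_
          gcongr
          exact Cv.concentration κ hmass hc0 hdom hind n z
      _ = (1 / (4 * c)) / (n + 1) * ∑' z, f z := by
          rw [ENNReal.tsum_mul_left]
          congr 1
          exact (Equiv.addLeft y).tsum_eq f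

end abs

end Vale.Agent.P147.D3
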