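import Vale.Agent.P147.D3.Base

/-! The final contradiction of the one-sided theorem in dimension three. -/

open MeasureTheory Filter Topology
open scoped ENNReal

namespace Vale.Agent.P147.D3

variable {d : ℕ} (μ : Measure (Row d)) [IsProbabilityMeasure μ]

/-- The contradiction, once the inequality for all scales is known. -/
lemma contra3_real {q r : ℝ} (hq : 0 < q) (hr0 : 0 < r) (hr1 : r ≤ 1) {Λ C₀ k₀ i₀ : ℕ}
    (hΛ : r⁻¹ ^ 2 < 2 * Λ) (hC₀ : 0 < C₀)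
    (H : ∀ j : ℕ, (C₀ : ℝ) * (2 * Λ) ^ j * q ≤
      k₀ * q + (r⁻¹) ^ (2 * j + i₀) + C₀ * (2 * Λ) ^ j * (q / 4)) : False := by
  have hρ : 1 ≤ r⁻¹ ^ 2 := one_le_pow₀ ((one_le_inv₀ hr0).2 hr1)
  have hL : (1 : ℝ) < 2 * Λ := lt_of_le_of_lt hρ hΛ
  have hL0 : (0 : ℝ) < 2 * Λ := zero_lt_one.trans hL
  have t1 : Tendsto (fun j : ℕ => (1 / (2 * (Λ : ℝ))) ^ j) atTop (𝓝 0) :=
    tendsto_pow_atTop_nhds_zero_of_lt_one (by (clear * - hL; positivity)) (by
      rw [div_lt_one hL0]; exact hL)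
  have t2 : Tendsto (fun j : ℕ => (r⁻¹ ^ 2 / (2 * (Λ : ℝ))) ^ j) atTop (𝓝 0) :=
    tendsto_pow_atTop_nhds_zero_of_lt_one (by (clear * - hr0 hL; positivity)) (by
      rw [div_lt_one hL0]; exact hΛ)
  have t3 : Tendsto (fun j : ℕ => (k₀ : ℝ) * q * (1 / (2 * (Λ : ℝ))) ^ j +
      r⁻¹ ^ i₀ * (r⁻¹ ^ 2 / (2 * (Λ : ℝ))) ^ j) atTop (𝓝 0) := by
    have := (t1.const_mul ((k₀ : ℝ) * q)).add (t2.const_mul (r⁻¹ ^ i₀))
    simpa only [one_div, mul_inv_rev, inv_pow, mul_zero, add_zero] using this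
  have hC : (0 : ℝ) < C₀ := by exact_mod_cast hC₀
  have h0 : (0 : ℝ) < C₀ * (q * (3 / 4)) := by positivity
  obtain ⟨j, hj⟩ := (t3.eventually_lt_const h0).exists
  have hp : (0 : ℝ) < (2 * (Λ : ℝ)) ^ j := by (clear * - hL; positivity)
  have h1 := H j
  have h2 : ((k₀ : ℝ) * q * (1 / (2 * (Λ : ℝ))) ^ j +
      r⁻¹ ^ i₀ * (r⁻¹ ^ 2 / (2 * (Λ : ℝ))) ^ j) * (2 * (Λ : ℝ)) ^ j =
      k₀ * q + (r⁻¹) ^ (2 * j + i₀) := by
    rw [div_pow, div_pow, one_pow, add_mul, mul_assoc ((k₀ : ℝ) * q), one_div,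
      inv_mul_cancel₀ hp.ne', mul_one, mul_assoc (r⁻¹ ^ i₀), div_mul_cancel₀ _ hp.ne',
      pow_add, pow_mul]
    ring
  have h3 := mul_lt_mul_of_pos_right hj hp
  rw [h2] at h3
  nlinarith only [h1, h3]

theorem contra3 {h : Site d →+ ℤ} {g : Env d → ℝ≥0∞} (hgm : Measurable g)
    {q' C₃ r : ℝ≥0∞} (hq' : q' ≠ 0) (hC₃ : C₃ ≠ ∞) (hr0 : r ≠ 0) (hr1 : r ≤ 1)
    (htail : ∀ i : ℕ, envLaw μ {ω | g ω ≤ r ^ i} ≤ (1 / 2) ^ i)
    (hti : ∑' k, ∫⁻ ω, BB h k ω * g ω ∂(envLaw μ) ≤ 1)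
    {Λ C₀ M k₀ : ℕ} (hΛ : r⁻¹ ^ 2 < 2 * Λ) (hC₀ : 0 < C₀) (hM : 0 < M)
    (hsm : ∀ j : ℕ, ∃ G : ℕ → Set (List (Dir d)),
      (∀ i, G i ⊆ Up h (M * i)) ∧
      (∀ i, k₀ ≤ i → i < C₀ * (2 * Λ) ^ j → q' ≤ ∑' l : G i, wt μ l) ∧
      ∑ i ∈ Finset.range (C₀ * (2 * Λ) ^ j),
        ∫⁻ ω, (∑' l : G i, qw ω (-dsp (l : List (Dir d))) l) ^ 2 ∂(envLaw μ) ≤
        C₃ * (C₀ * (2 * Λ) ^ j : ℕ) * 4 ^ j) : False := by
  classical
  -- a finite lower bound
  obtain ⟨q, hq0, hqt, hqq⟩ : ∃ q : ℝ≥0∞, q ≠ 0 ∧ q ≠ ∞ ∧ q ≤ q' := by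
    refine ⟨min q' 1, ?_, ne_top_of_le_ne_top ENNReal.one_ne_top (min_le_right _ _),
      min_le_left _ _⟩
    rw [ne_eq, min_eq_iff]
    rintro (⟨h1, _⟩ | ⟨h1, _⟩)
    · exact hq' h1
    · exact one_ne_zero h1
  have hrt : r ≠ ∞ := ne_top_of_le_ne_top ENNReal.one_ne_top hr1
  have hq8 : q / 8 ≠ 0 := by simp [ENNReal.div_eq_zero_iff, hq0]
  -- the truncation constant
  obtain ⟨a, ha0, hat, ha⟩ : ∃ a : ℝ≥0∞, a ≠ 0 ∧ a ≠ ∞ ∧ C₃ / a ≤ q / 8 := by
    refine ⟨C₃ / (q / 8) + 1, by simp only [ne_eq, add_eq_zero, ENNReal.div_eq_zero_iff, one_ne_zero, and_false, not_false_eq_true], ?_, ?_⟩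
    · exact ENNReal.add_ne_top.2 ⟨ENNReal.div_ne_top hC₃ hq8, ENNReal.one_ne_top⟩
    · rw [ENNReal.div_le_iff (by simp only [ne_eq, add_eq_zero, ENNReal.div_eq_zero_iff, one_ne_zero, and_false, not_false_eq_true])
        (ENNReal.add_ne_top.2 ⟨ENNReal.div_ne_top hC₃ hq8, ENNReal.one_ne_top⟩), mul_add]
      refine le_trans (le_of_eq ?_) le_self_add
      rw [ENNReal.mul_div_cancel hq8 (ENNReal.div_ne_top hqt (by simp))]
  obtain ⟨i₀, hi₀⟩ : ∃ i₀ : ℕ, a * (1 / 2) ^ i₀ ≤ q / 8 := by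
    have h1 : Tendsto (fun n : ℕ => a * (1 / 2 : ℝ≥0∞) ^ n) atTop (𝓝 (a * 0)) := by
      refine ENNReal.Tendsto.const_mul ?_ (Or.inr hat)
      exact ENNReal.tendsto_pow_atTop_nhds_zero_of_lt_one (by
        rw [one_div]; exact ENNReal.inv_lt_one.2 (by norm_num))
    rw [mul_zero] at h1
    obtain ⟨n, hn⟩ := (h1.eventually_lt_const (pos_iff_ne_zero.2 hq8)).exists
    exact ⟨n, hn.le⟩
  -- the inequality at scale `j`
  have key : ∀ j : ℕ, ((C₀ * (2 * Λ) ^ j : ℕ) : ℝ≥0∞) * q ≤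
      k₀ * q + (r⁻¹) ^ (2 * j + i₀) + (C₀ * (2 * Λ) ^ j : ℕ) * (q / 4) := by
    intro j
    obtain ⟨G, hG, hmean, hsq⟩ := hsm j
    set J : ℕ := C₀ * (2 * Λ) ^ j with hJ
    set T : ℝ≥0∞ := a * 4 ^ j with hT
    have h4t : (4 : ℝ≥0∞) ^ j ≠ ∞ := ENNReal.pow_ne_top (by simp)
    have h40 : (4 : ℝ≥0∞) ^ j ≠ 0 := pow_ne_zero _ (by simp)
    have hT0 : T ≠ 0 := mul_ne_zero ha0 h40
    have hTt : T ≠ ∞ := ENNReal.mul_ne_top hat h4t
    set δ : ℝ≥0∞ := r ^ (2 * j + i₀) with hδ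
    have hδ0 : δ ≠ 0 := pow_ne_zero _ hr0
    have hδt : δ ≠ ∞ := ENNReal.pow_ne_top hrt
    have hTP : T * envLaw μ {ω | g ω ≤ δ} ≤ q / 8 := by
      refine le_trans ?_ hi₀
      calc T * envLaw μ {ω | g ω ≤ δ} ≤ T * (1 / 2) ^ (2 * j + i₀) := by
            gcongr
            exact htail _
        _ = a * (1 / 2) ^ i₀ * (4 ^ j * (1 / 2) ^ (2 * j)) := by
            rw [hT, pow_add]; ring
        _ = a * (1 / 2) ^ i₀ := by
            rw [pow_mul, ← mul_pow]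
            have : (4 : ℝ≥0∞) * (1 / 2) ^ 2 = 1 := by
              rw [one_div, ← ENNReal.inv_pow]
              norm_num
              exact ENNReal.mul_inv_cancel (by simp) (by simp)
            rw [this, one_pow, mul_one]
    set B : ℕ → Env d → ℝ≥0∞ := fun i ω => ∑' l : G i, qw ω (-dsp (l : List (Dir d))) l
      with hBdef
    have hBm : ∀ i, Measurable (B i) := fun i => Measurable.tsum fun _ => measurable_qw _ _
    have hBle : ∀ i ω, B i ω ≤ BB h (M * i) ω := by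
      intro i ω
      exact ENNReal.tsum_comp_le_tsum_of_injective
          (f := fun l : G i => (⟨l.1, hG i l.2⟩ : Up h (M * i)))
          (fun a b hab => Subtype.ext (congrArg (fun x : Up h (M * i) => x.1) hab))
          (fun l : Up h (M * i) => qw ω (-dsp (l : List (Dir d))) l)
    have hEB : ∀ i, ∫⁻ ω, B i ω ∂(envLaw μ) = ∑' l : G i, wt μ l := by
      intro i
      rw [hBdef, lintegral_tsum fun _ => (measurable_qw _ _).aemeasurable]
      refine tsum_congr fun l => ?_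
      rw [lintegral_qw]
    have hpt : ∀ i ω, B i ω ≤ δ⁻¹ * (BB h (M * i) ω * g ω) + (B i ω ^ 2 / T +
        T * {ω | g ω ≤ δ}.indicator 1 ω) := by
      intro i ω
      by_cases h1 : g ω ≤ δ
      · refine le_trans ?_ le_add_self
        rw [Set.indicator_of_mem (show ω ∈ {ω | g ω ≤ δ} from h1)]
        rcases le_total (B i ω) T with h2 | h2
        · refine le_trans h2 (le_trans ?_ le_add_self)
          simp
        · refine le_trans ?_ le_self_add
          rw [ENNReal.le_div_iff_mul_le (Or.inl hT0) (Or.inl hTt), sq]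
          (clear * - h2; gcongr)
      · refine le_trans ?_ le_self_add
        push Not at h1
        calc B i ω = δ⁻¹ * (B i ω * δ) := by
              rw [mul_comm (B i ω), ← mul_assoc, ENNReal.inv_mul_cancel hδ0 hδt, one_mul]
          _ ≤ δ⁻¹ * (BB h (M * i) ω * g ω) := by
              gcongr
              exact hBle i ω
    have hint : ∀ i, ∫⁻ ω, B i ω ∂(envLaw μ) ≤
        δ⁻¹ * ∫⁻ ω, BB h (M * i) ω * g ω ∂(envLaw μ) +
          ((∫⁻ ω, B i ω ^ 2 ∂(envLaw μ)) / T + q / 8) := by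
      intro i
      calc ∫⁻ ω, B i ω ∂(envLaw μ) ≤ ∫⁻ ω, δ⁻¹ * (BB h (M * i) ω * g ω) + (B i ω ^ 2 / T +
            T * {ω | g ω ≤ δ}.indicator 1 ω) ∂(envLaw μ) := lintegral_mono (hpt i)
        _ = δ⁻¹ * ∫⁻ ω, BB h (M * i) ω * g ω ∂(envLaw μ) +
            ((∫⁻ ω, B i ω ^ 2 ∂(envLaw μ)) / T + T * envLaw μ {ω | g ω ≤ δ}) := by
            have m1 : Measurable fun ω => BB h (M * i) ω * g ω :=
              (measurable_BB h (M * i)).mul hgm
            have m2 : Measurable fun ω => B i ω ^ 2 := (hBm i).pow_const 2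
            have m3 : Measurable ({ω | g ω ≤ δ}.indicator (1 : Env d → ℝ≥0∞)) :=
              measurable_one.indicator (measurableSet_le hgm measurable_const)
            rw [lintegral_add_left (m1.const_mul δ⁻¹), lintegral_const_mul _ m1,
              lintegral_add_left (m2.div_const T), lintegral_const_mul T m3,
              lintegral_indicator_one (measurableSet_le hgm measurable_const)]
            congr 2
            simp only [div_eq_mul_inv]
            rw [lintegral_mul_const _ m2]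
        _ ≤ _ := by (clear * - hTP; gcongr)
    have hlow : ∀ i ∈ Finset.range J, q ≤ ∫⁻ ω, B i ω ∂(envLaw μ) +
        (if i < k₀ then q else 0) := by
      intro i hi
      by_cases hik : i < k₀
      · rw [if_pos hik]; exact le_add_self
      · refine le_trans (hqq.trans ?_) le_self_add
        rw [hEB]
        exact hmean i (not_lt.1 hik) (Finset.mem_range.1 hi)
    have hsumlow : (J : ℝ≥0∞) * q ≤ ∑ i ∈ Finset.range J, ∫⁻ ω, B i ω ∂(envLaw μ) +
        k₀ * q := by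
      calc (J : ℝ≥0∞) * q = ∑ i ∈ Finset.range J, q := by simp
        _ ≤ ∑ i ∈ Finset.range J, (∫⁻ ω, B i ω ∂(envLaw μ) + (if i < k₀ then q else 0)) :=
            Finset.sum_le_sum hlow
        _ = ∑ i ∈ Finset.range J, ∫⁻ ω, B i ω ∂(envLaw μ) +
            ((Finset.range J).filter (fun i => i < k₀)).card * q := by
            rw [Finset.sum_add_distrib, ← Finset.sum_filter, Finset.sum_const, nsmul_eq_mul]
        _ ≤ _ := by
            gcongr
            calc ((Finset.range J).filter (fun i => i < k₀)).card ≤ (Finset.range k₀).card := by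
                  refine Finset.card_le_card fun i hi => ?_
                  rw [Finset.mem_range]
                  exact (Finset.mem_filter.1 hi).2
              _ = k₀ := Finset.card_range k₀
    have hBBsum : ∑ i ∈ Finset.range J, ∫⁻ ω, BB h (M * i) ω * g ω ∂(envLaw μ) ≤ 1 := by
      refine le_trans (ENNReal.sum_le_tsum _) (le_trans ?_ hti)
      exact ENNReal.tsum_comp_le_tsum_of_injective (f := fun i : ℕ => M * i)
        (fun a b hab => Nat.eq_of_mul_eq_mul_left hM hab)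
        (fun k => ∫⁻ ω, BB h k ω * g ω ∂(envLaw μ))
    have hsqsum : (∑ i ∈ Finset.range J, ∫⁻ ω, B i ω ^ 2 ∂(envLaw μ)) / T ≤ J * (q / 8) := by
      calc (∑ i ∈ Finset.range J, ∫⁻ ω, B i ω ^ 2 ∂(envLaw μ)) / T ≤
            (C₃ * J * 4 ^ j) / (a * 4 ^ j) := ENNReal.div_le_div_right hsq T
        _ = J * (C₃ / a) := by
            rw [ENNReal.mul_div_mul_right _ _ h40 h4t, mul_comm C₃, mul_div_assoc]
        _ ≤ _ := by (clear * - ha; gcongr)
    calc (J : ℝ≥0∞) * q ≤ ∑ i ∈ Finset.range J, ∫⁻ ω, B i ω ∂(envLaw μ) + k₀ * q := hsumlow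
      _ ≤ ∑ i ∈ Finset.range J, (δ⁻¹ * ∫⁻ ω, BB h (M * i) ω * g ω ∂(envLaw μ) +
          ((∫⁻ ω, B i ω ^ 2 ∂(envLaw μ)) / T + q / 8)) + k₀ * q := by
          gcongr with i hi
          exact hint i
      _ = δ⁻¹ * (∑ i ∈ Finset.range J, ∫⁻ ω, BB h (M * i) ω * g ω ∂(envLaw μ)) +
          ((∑ i ∈ Finset.range J, ∫⁻ ω, B i ω ^ 2 ∂(envLaw μ)) / T + J * (q / 8)) +
          k₀ * q := by
          rw [Finset.sum_add_distrib, Finset.sum_add_distrib, Finset.mul_sum]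
          congr 3
          · simp only [div_eq_mul_inv, Finset.sum_mul]
          · simp
      _ ≤ δ⁻¹ * 1 + (J * (q / 8) + J * (q / 8)) + k₀ * q := by (clear * - hBBsum hsqsum; gcongr)
      _ = k₀ * q + (r⁻¹) ^ (2 * j + i₀) + J * (q / 4) := by
          have h48 : q / 8 + q / 8 = q / 4 := by
            rw [ENNReal.div_add_div_same, ← two_mul, mul_comm 2 q,
              show (8 : ℝ≥0∞) = 4 * 2 by norm_num,
              ENNReal.mul_div_mul_right _ _ (by simp) (by simp)]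
          rw [mul_one, ← mul_add, h48, hδ, ENNReal.inv_pow]
          ring
  -- real numbers
  have hqr : 0 < q.toReal := ENNReal.toReal_pos hq0 hqt
  have hrr : 0 < r.toReal := ENNReal.toReal_pos hr0 hrt
  refine contra3_real (q := q.toReal) (r := r.toReal) hqr hrr ?_ (Λ := Λ) (C₀ := C₀)
    (k₀ := k₀) (i₀ := i₀) ?_ hC₀ ?_
  · exact ENNReal.toReal_le_of_le_ofReal zero_le_one (by simpa only [ENNReal.ofReal_one] using hr1)
  · have h1 : r⁻¹ ^ 2 ≠ ∞ := ENNReal.pow_ne_top (ENNReal.inv_ne_top.2 hr0)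
    have h2 : (2 * (Λ : ℝ≥0∞)) ≠ ∞ := ENNReal.mul_ne_top (by simp) (ENNReal.natCast_ne_top _)
    have h3 := (ENNReal.toReal_lt_toReal h1 h2).2 hΛ
    simpa only [inv_pow, gt_iff_lt, ENNReal.toReal_pow, ENNReal.toReal_inv, ENNReal.toReal_mul,     ENNReal.toReal_ofNat, ENNReal.toReal_natCast] using h3
  · intro j
    have hfin : (k₀ : ℝ≥0∞) * q + (r⁻¹) ^ (2 * j + i₀) + (C₀ * (2 * Λ) ^ j : ℕ) * (q / 4) ≠ ∞ := by
      refine ENNReal.add_ne_top.2 ⟨ENNReal.add_ne_top.2 ⟨?_, ?_⟩, ?_⟩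
      · exact ENNReal.mul_ne_top (ENNReal.natCast_ne_top _) hqt
      · exact ENNReal.pow_ne_top (ENNReal.inv_ne_top.2 hr0)
      · exact ENNReal.mul_ne_top (ENNReal.natCast_ne_top _) (ENNReal.div_ne_top hqt (by simp))
    have h1 := ENNReal.toReal_mono hfin (key j)
    rw [ENNReal.toReal_add (ENNReal.add_ne_top.1 hfin).1 (ENNReal.add_ne_top.1 hfin).2,
      ENNReal.toReal_add (ENNReal.add_ne_top.1 (ENNReal.add_ne_top.1 hfin).1).1
        (ENNReal.add_ne_top.1 (ENNReal.add_ne_top.1 hfin).1).2] at h1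
    simpa only [inv_pow, ge_iff_le, Nat.cast_mul, Nat.cast_pow, Nat.cast_ofNat, ENNReal.toReal_mul,     ENNReal.toReal_natCast, ENNReal.toReal_pow, ENNReal.toReal_ofNat, ENNReal.toReal_inv, ENNReal.toReal_div] using h1

end Vale.Agent.P147.D3
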