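import Vale.Agent.P147.D3.Base

/-! Turning inequality for `UpI` and the generic final part. -/

open MeasureTheory Filter Topology
open scoped ENNReal

namespace Vale.Agent.P147.D3

variable {d : ℕ}

lemma measurableSet_upI (h : Site d →+ ℤ) : MeasurableSet (UpI h) :=
  (measurableSet_stayUp h).inter (kal_meas_unbdd h)

lemma tinv_upI (h : Site d →+ ℤ) : TInv (UpI h) := by
  refine tinv_inter (tinv_stayUp h) ?_
  intro z X
  simp only [Set.mem_ofPred_eq, tr, map_add]
  constructor
  · intro hX K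
    obtain ⟨n, hn⟩ := hX (K + h z)
    exact ⟨n, by linarith⟩
  · intro hX K
    obtain ⟨n, hn⟩ := hX (K - h z)
    exact ⟨n, by linarith⟩

lemma upS_subset_upI (h : Site d →+ ℤ) : UpS h ⊆ UpI h := by
  rintro X ⟨h1, h2⟩
  refine ⟨h1, fun K => ?_⟩
  obtain ⟨M, hM⟩ := (tendsto_atTop_atTop.1 h2) K
  exact ⟨M, hM M le_rfl⟩

lemma UEll.elliptic {μ : Measure (Row d)} (hμ : UEll μ) : Elliptic μ := by
  obtain ⟨κ, hκ, h⟩ := hμ
  filter_upwards [h] with p hp u
  exact hκ.trans_le (hp u)

/-- Up along `l`, and then down, unboundedly, without going above the end of `l`. -/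
def turnEvI (h : Site d →+ ℤ) (l : List (Dir d)) : Set (ℕ → Site d) :=
  cyl 0 l ∩ tl l.length ⁻¹' (UpI (-h))

lemma measurableSet_turnEvI (h : Site d →+ ℤ) (l : List (Dir d)) :
    MeasurableSet (turnEvI h l) :=
  (measurableSet_cyl 0 l).inter (measurable_tl _ (measurableSet_upI (-h)))

lemma turnEvI_not_lt {h : Site d →+ ℤ} {k k' : ℕ} {l l' : List (Dir d)} (hl : l ∈ Up h k)
    (hl' : l' ∈ Up h k') {X : ℕ → Site d} (h1 : X ∈ turnEvI h l) (h2 : X ∈ turnEvI h l') :
    ¬ k < k' := by
  intro hlt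
  have e1 : X l.length = dsp l := by
    have := cyl_pos h1.1 (a := l) (b := []) (by simp)
    simpa using this
  have e2 : X l'.length = dsp l' := by
    have := cyl_pos h2.1 (a := l') (b := []) (by simp)
    simpa using this
  rcases le_or_gt l.length l'.length with hle | hlt'
  · have h3 := h1.2.1 (l'.length - l.length)
    simp only [tl, zero_add, AddMonoidHom.neg_apply, neg_le_neg_iff] at h3
    rw [Nat.sub_add_cancel hle, e1, e2, hl.2.2, hl'.2.2] at h3
    omega
  · have h3 := cyl_pos h1.1 (a := l.take l'.length) (b := l.drop l'.length) (by simp)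
    rw [List.length_take, min_eq_left hlt'.le, zero_add, e2] at h3
    have h4 := hl.2.1 (l.take l'.length) (l.drop l'.length) (by simp) (by
      intro h0
      rw [List.drop_eq_nil_iff] at h0
      omega)
    rw [← h3, hl'.2.2] at h4
    omega

lemma turnEvI_disjoint {h : Site d →+ ℤ} {p q : Σ k : ℕ, Up h k} (hpq : p ≠ q) :
    Disjoint (turnEvI h (p.2 : List (Dir d))) (turnEvI h (q.2 : List (Dir d))) := by
  rcases p with ⟨k, l, hl⟩
  rcases q with ⟨k', l', hl'⟩
  rw [Set.disjoint_left]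
  intro X h1 h2
  simp only at h1 h2
  have h3 := turnEvI_not_lt hl hl' h1 h2
  have h4 := turnEvI_not_lt hl' hl h2 h1
  have h5 : k = k' := by omega
  subst h5
  have h6 : l ≠ l' := by
    rintro rfl
    exact hpq rfl
  exact Set.disjoint_left.1 (cyl_disjoint (Up_free h k) hl hl' h6) h1.1 h2.1

variable (μ : Measure (Row d)) [IsProbabilityMeasure μ]

lemma lintegral_turnEvI (h : Site d →+ ℤ) (l : List (Dir d)) :
    ∫⁻ ω, qw ω (-dsp l) l * quenched ω 0 (UpI (-h)) ∂(envLaw μ) =
      ∫⁻ ω, quenched ω 0 (turnEvI h l) ∂(envLaw μ) := by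
  have hm : Measurable (fun ω : Env d => qw ω (-dsp l) l * quenched ω 0 (UpI (-h))) :=
    (measurable_qw _ _).mul (measurable_quenched_apply 0 (measurableSet_upI (-h)))
  rw [← (measurePreserving_shift μ (dsp l)).lintegral_comp hm]
  refine lintegral_congr fun ω => ?_
  rw [qw_shift, neg_add_cancel, quenched_shift ω 0 (dsp l) (measurableSet_upI (-h)), turnEvI,
    quenched_markov ω 0 l (measurableSet_upI (-h))]
  congr 2
  ext X
  exact tinv_upI (-h) _ X

/-- The turning inequality for `UpI`. -/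
theorem turning_sum_upI (h : Site d →+ ℤ) :
    ∑' k, ∫⁻ ω, BB h k ω * quenched ω 0 (UpI (-h)) ∂(envLaw μ) ≤ 1 := by
  have h1 : ∀ k, ∫⁻ ω, BB h k ω * quenched ω 0 (UpI (-h)) ∂(envLaw μ) =
      ∑' l : Up h k, ∫⁻ ω, quenched ω 0 (turnEvI h (l : List (Dir d))) ∂(envLaw μ) := by
    intro k
    simp only [← lintegral_turnEvI, BB, ← ENNReal.tsum_mul_right]
    exact lintegral_tsum fun l => ((measurable_qw _ _).mul
      (measurable_quenched_apply 0 (measurableSet_upI (-h)))).aemeasurable
  simp only [h1]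
  rw [← ENNReal.tsum_sigma' (f := fun p : Σ k : ℕ, Up h k =>
    ∫⁻ ω, quenched ω 0 (turnEvI h (p.2 : List (Dir d))) ∂(envLaw μ)),
    ← lintegral_tsum fun p : Σ k : ℕ, Up h k =>
      (measurable_quenched_apply 0 (measurableSet_turnEvI h _)).aemeasurable]
  calc ∫⁻ ω, ∑' p : Σ k : ℕ, Up h k, quenched ω 0 (turnEvI h (p.2 : List (Dir d))) ∂(envLaw μ)
      ≤ ∫⁻ _, 1 ∂(envLaw μ) := by
        refine lintegral_mono fun ω => ?_
        rw [← measure_iUnion (fun p q hpq => turnEvI_disjoint hpq)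
          fun p => measurableSet_turnEvI h _]
        exact prob_le_one
    _ = 1 := by simp

/-! ### The generic final part -/

section final

variable (hone : ∀ h : Site d →+ ℤ, Function.Surjective h → Lin μ h →
  annealed μ 0 (Esc (-h)) = 0)

include hone

/-- Thin escape with positive probability implies escape with probability one. -/
theorem esc_one' (hμ : Elliptic μ) {h : Site d →+ ℤ}
    (hsurj : Function.Surjective h) (hl : Lin μ h) (hpos : annealed μ 0 (Esc h) ≠ 0) :
    annealed μ 0 (Esc h)ᶜ = 0 := by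
  have h1 := hone h hsurj hl
  have h2 := sign_union μ hμ hsurj hpos
  have hm := measurableSet_esc h
  have hm' := measurableSet_esc (-h)
  refine le_antisymm ?_ zero_le
  rw [← annM_apply μ 0 hm.compl]
  rw [← annM_apply μ 0 hm'] at h1
  rw [← annM_apply μ 0 (hm.union hm').compl] at h2
  calc annM μ 0 (Esc h)ᶜ ≤ annM μ 0 ((Esc h ∪ Esc (-h))ᶜ ∪ Esc (-h)) := by
        refine measure_mono fun X hX => ?_
        by_cases h3 : X ∈ Esc (-h)
        · exact Or.inr h3
        · exact Or.inl (fun h4 => h4.elim hX h3)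
    _ ≤ annM μ 0 (Esc h ∪ Esc (-h))ᶜ + annM μ 0 (Esc (-h)) := measure_union_le _ _
    _ = 0 := by rw [h1, h2, add_zero]

theorem thin_one' (hμ : Elliptic μ) {v : Fin d → ℝ}
    (hpos : annealed μ 0 (ThinEscape v) ≠ 0) : annealed μ 0 (Escape v)ᶜ = 0 :=
  real_reduction μ hpos fun _ hsurj hl hp => esc_one' μ hone hμ hsurj hl hp

/-- Law of large numbers: a nonzero velocity with positive probability is the velocity almost
surely. -/
theorem speed_one' (hμ : Elliptic μ) {w : Fin d → ℝ} (hw : w ≠ 0)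
    (hpos : annealed μ 0 (Speed w) ≠ 0) : annealed μ 0 (Speed w)ᶜ = 0 := by
  obtain ⟨h, v, hsurj, hs1, hs2, hs3⟩ := exists_functional_thin hw
  have h3 := speed_zero_one_aux μ hs1 hpos
  have hp : annealed μ 0 (ThinEscape v) ≠ 0 := fun h0 => hpos
    (le_antisymm ((annealed_mono μ 0 hs2).trans h0.le) zero_le)
  have h4 := thin_one' μ hone hμ hp
  have hm := measurableSet_speed w
  have hm' := measurableSet_esc h
  have h5 : annealed μ 0 (Esc h)ᶜ = 0 :=
    le_antisymm ((annealed_mono μ 0 (Set.compl_subset_compl.2 hs3)).trans h4.le) zero_le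
  rw [← annM_apply μ 0 hm.compl]
  rw [← annM_apply μ 0 hm'.compl] at h5
  rw [← annM_apply μ 0 (hm'.diff hm)] at h3
  refine le_antisymm ?_ zero_le
  calc annM μ 0 (Speed w)ᶜ ≤ annM μ 0 ((Esc h \ Speed w) ∪ (Esc h)ᶜ) := by
        refine measure_mono fun X hX => ?_
        by_cases h6 : X ∈ Esc h
        · exact Or.inl ⟨h6, hX⟩
        · exact Or.inr h6
    _ ≤ _ := measure_union_le _ _
    _ = 0 := by rw [h3, h5, add_zero]

/-- **One-sided theorem.** If the walk escapes at linear rate in some direction with positive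
probability, then the directional zero-one law holds for all directions. -/
theorem zero_one_of_thin' (hμ : Elliptic μ) {v : Fin d → ℝ}
    (hpos : annealed μ 0 (ThinEscape v) ≠ 0) :
    annealed μ 0 (Escape v) = 1 ∧
      ∀ l : Fin d → ℝ, annealed μ 0 (Escape l) = 0 ∨ annealed μ 0 (Escape l) = 1 := by
  constructor
  · have h1 := thin_one' μ hone hμ hpos
    have hm := measurableSet_escape v
    rw [← annM_apply μ 0 hm.compl] at h1
    rw [← annM_apply μ 0 hm]
    exact (prob_compl_eq_zero_iff hm).1 h1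
  · intro l
    obtain ⟨h, hsurj, hlin, hne⟩ := exists_lin μ hpos
    exact invariant_zero_one μ (esc_one' μ hone hμ hsurj hlin hne) (measurableSet_escape l)
      (tinv_escape l) (sinv_escape l)

theorem speed_eq_one' (hμ : Elliptic μ) {w : Fin d → ℝ} (hw : w ≠ 0)
    (hpos : annealed μ 0 (Speed w) ≠ 0) : annealed μ 0 (Speed w) = 1 := by
  have h1 := speed_one' μ hone hμ hw hpos
  have hm := measurableSet_speed w
  rw [← annM_apply μ 0 hm.compl] at h1
  rw [← annM_apply μ 0 hm]
  exact (prob_compl_eq_zero_iff hm).1 h1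

/-- The final statement from the one-sided theorem for integer functionals. -/
theorem final_of_one (hμ : Elliptic μ) :
    (∀ v : Fin d → ℝ, annealed μ 0 (ThinEscape v) ≠ 0 → annealed μ 0 (Escape v) = 1 ∧
      ∀ l : Fin d → ℝ, annealed μ 0 (Escape l) = 0 ∨ annealed μ 0 (Escape l) = 1) ∧
    (∀ w : Fin d → ℝ, w ≠ 0 → annealed μ 0 (Speed w) ≠ 0 → annealed μ 0 (Speed w) = 1 ∧
      ∀ l : Fin d → ℝ, annealed μ 0 (Escape l) = 0 ∨ annealed μ 0 (Escape l) = 1) := by
  refine ⟨fun v hpos => zero_one_of_thin' μ hone hμ hpos, fun w hw hpos =>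
    ⟨speed_eq_one' μ hone hμ hw hpos, ?_⟩⟩
  obtain ⟨h, v, hsurj, hs1, hs2, hs3⟩ := exists_functional_thin hw
  have hp : annealed μ 0 (ThinEscape v) ≠ 0 := fun h0 => hpos
    (le_antisymm ((annealed_mono μ 0 hs2).trans h0.le) zero_le)
  exact (zero_one_of_thin' μ hone hμ hp).2

end final

end Vale.Agent.P147.D3
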