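import Vale.Agent.P147.D3.PairA

open MeasureTheory Filter
open scoped ENNReal

namespace Vale.Agent.P147.D3

variable {d : ℕ} (μ : Measure (Row d)) (h : Site d →+ ℤ)

open Classical in
/-- Weight of `i` blocks without contact and with total length `< n`. -/
noncomputable def lvPhi : ℕ → ℕ → h.ker → ℝ≥0∞
  | 0, n, _ => if 0 < n then 1 else 0
  | i + 1, n, z => ∑' p : SIrr h,
      if sc h z p then 0 else pw μ h p * lvPhi i (n - p.1) (z + sd h p)

/-- Weight of `i` blocks without contact. -/
noncomputable def lvA (i : ℕ) : h.ker → ℝ≥0∞ := (aN (pw μ h) (sd h) (sc h))^[i] 1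

open Classical in
lemma lvA_succ (i : ℕ) (z : h.ker) : lvA μ h (i + 1) z =
    ∑' p : SIrr h, if sc h z p then 0 else pw μ h p * lvA μ h i (z + sd h p) := by
  rw [lvA, Function.iterate_succ_apply']
  rfl

variable {μ h}

lemma lvA_le_one (hw : ∑' p, pw μ h p = 1) (i : ℕ) (z : h.ker) : lvA μ h i z ≤ 1 := by
  classical
  induction i generalizing z with
  | zero => simp [lvA]
  | succ i ih =>
    rw [lvA_succ, ← hw]
    refine ENNReal.tsum_le_tsum fun p => ?_
    split_ifs
    · exact zero_le
    · exact (mul_le_mul' le_rfl (ih _)).trans_eq (mul_one _)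

lemma lvA_anti (hw : ∑' p, pw μ h p = 1) (i : ℕ) (z : h.ker) :
    lvA μ h (i + 1) z ≤ lvA μ h i z := by
  classical
  induction i generalizing z with
  | zero => simpa [lvA] using lvA_le_one hw 1 z
  | succ i ih =>
    rw [lvA_succ μ h (i + 1), lvA_succ μ h i]
    refine ENNReal.tsum_le_tsum fun p => ?_
    split_ifs
    · exact le_rfl
    · exact mul_le_mul' le_rfl (ih _)

lemma lv_low (hw : ∑' p, pw μ h p = 1) {L : ℝ≥0∞}
    (hL : ∑' p, pw μ h p * (p.1 : ℝ≥0∞) ≤ L) (i n : ℕ) (z : h.ker) :
    (n : ℝ≥0∞) * lvA μ h i z ≤ n * lvPhi μ h i n z + i * L := by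
  classical
  induction i generalizing n z with
  | zero =>
    rcases Nat.eq_zero_or_pos n with rfl | hn
    · simp
    · simp [lvA, lvPhi, hn]
  | succ i ih =>
    rw [lvA_succ, ← ENNReal.tsum_mul_left]
    calc ∑' p : SIrr h, (n : ℝ≥0∞) *
          (if sc h z p then 0 else pw μ h p * lvA μ h i (z + sd h p))
        ≤ ∑' p : SIrr h, ((n : ℝ≥0∞) *
          (if sc h z p then 0 else pw μ h p * lvPhi μ h i (n - p.1) (z + sd h p)) +
          (pw μ h p * (i * L) + pw μ h p * (p.1 : ℝ≥0∞))) := by
          refine ENNReal.tsum_le_tsum fun p => ?_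
          split_ifs with hc
          · simp
          · have h1 : (n : ℝ≥0∞) ≤ ((n - p.1 : ℕ) : ℝ≥0∞) + p.1 := by
              have : n ≤ (n - p.1) + p.1 := by omega
              exact_mod_cast this
            have h2 : ((n - p.1 : ℕ) : ℝ≥0∞) ≤ n := by exact_mod_cast Nat.sub_le n p.1
            calc (n : ℝ≥0∞) * (pw μ h p * lvA μ h i (z + sd h p))
                = pw μ h p * (n * lvA μ h i (z + sd h p)) := by ring
              _ ≤ pw μ h p * ((((n - p.1 : ℕ) : ℝ≥0∞) + p.1) * lvA μ h i (z + sd h p)) := by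
                  gcongr
              _ = pw μ h p * (((n - p.1 : ℕ) : ℝ≥0∞) * lvA μ h i (z + sd h p) +
                    p.1 * lvA μ h i (z + sd h p)) := by rw [add_mul]
              _ ≤ pw μ h p * ((((n - p.1 : ℕ) : ℝ≥0∞) * lvPhi μ h i (n - p.1) (z + sd h p) +
                    i * L) + p.1 * 1) := by
                  gcongr
                  · exact ih _ _
                  · exact lvA_le_one hw _ _
              _ ≤ pw μ h p * (((n : ℝ≥0∞) * lvPhi μ h i (n - p.1) (z + sd h p) +
                    i * L) + p.1 * 1) := by gcongr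
              _ = _ := by ring
      _ = n * lvPhi μ h (i + 1) n z + (i * L + ∑' p : SIrr h, pw μ h p * (p.1 : ℝ≥0∞)) := by
          rw [ENNReal.tsum_add, ENNReal.tsum_add, ENNReal.tsum_mul_left, ENNReal.tsum_mul_right,
            hw, one_mul]
          rfl
      _ ≤ n * lvPhi μ h (i + 1) n z + (i * L + L) := by gcongr
      _ = _ := by push_cast; ring

open Classical in
lemma lv_DS_sum [IsProbabilityMeasure μ] (z : h.ker) (n : ℕ) :
    ∑ m ∈ Finset.range n, DS μ h z m = (if 0 < n then 1 else 0) +
      ∑' p : SIrr h, (if sc h z p then 0 else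
        pw μ h p * ∑ m ∈ Finset.range (n - p.1), DS μ h (z + sd h p : h.ker) m) := by
  rcases Nat.eq_zero_or_pos n with rfl | hn
  · simp
  obtain ⟨n, rfl⟩ : ∃ k, n = k + 1 := ⟨n - 1, by omega⟩
  rw [Finset.sum_range_succ', DS_zero, if_pos hn, add_comm]
  congr 1
  have hz : h (z : Site d) = 0 := z.2
  have h1 : ∀ m : ℕ, DS μ h z (m + 1) = ∑' j : ℕ, ∑' x : (sG h).I j,
      (if j ≤ m + 1 then WS μ x * ((if SDj (z : Site d) (x : SM d) then 1 else 0) *
        DS μ h ((z : Site d) + (x : SM d).disp) (m + 1 - j)) else 0) := by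
    intro m
    rw [DS_succ μ hz (Nat.succ_pos m)]
    rw [tsum_eq_sum (s := Finset.Icc 1 (m + 1))]
    · refine Finset.sum_congr rfl fun j hj => tsum_congr fun x => ?_
      rw [Finset.mem_Icc] at hj
      rw [if_pos hj.2]
    · intro j hj
      rw [Finset.mem_Icc, not_and_or] at hj
      rw [ENNReal.tsum_eq_zero]
      intro x
      have hx : 0 < j := x.2.2.1
      rw [if_neg (by omega)]
  simp only [h1]
  rw [← Summable.tsum_finsetSum fun _ _ => ENNReal.summable, ENNReal.tsum_sigma']
  refine tsum_congr fun j => ?_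
  rw [← Summable.tsum_finsetSum fun _ _ => ENNReal.summable]
  refine tsum_congr fun x => ?_
  have hj : 0 < j := x.2.2.1
  simp only [sc, pw]
  by_cases hS : SDj (z : Site d) (x : SM d)
  · simp only [hS, not_true_eq_false, if_false, if_true, one_mul]
    rw [← Finset.sum_filter, ← Finset.mul_sum]
    congr 1
    have e : (Finset.range n).filter (fun m => j ≤ m + 1) =
        (Finset.range (n + 1 - j)).image (fun m => m + j - 1) := by
      ext m
      simp only [Finset.mem_filter, Finset.mem_range, Finset.mem_image]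
      constructor
      · rintro ⟨h2, h3⟩
        exact ⟨m + 1 - j, by omega, by omega⟩
      · rintro ⟨k, h2, rfl⟩
        omega
    rw [e, Finset.sum_image]
    · refine Finset.sum_congr rfl fun m _ => ?_
      have e2 : m + j - 1 + 1 - j = m := by omega
      rw [e2]
      rfl
    · intro a _ b _ hab
      simp only at hab
      omega
  · simp only [hS, not_false_eq_true, if_true, if_false, zero_mul, mul_zero, ite_self,
      Finset.sum_const_zero]

lemma lv_sum [IsProbabilityMeasure μ] (I n : ℕ) (z : h.ker) :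
    ∑ i ∈ Finset.range I, lvPhi μ h i n z ≤ ∑ m ∈ Finset.range n, DS μ h z m := by
  classical
  induction I generalizing n z with
  | zero => simp
  | succ I ih =>
    rw [Finset.sum_range_succ', lv_DS_sum, add_comm]
    refine add_le_add (by simp [lvPhi]) ?_
    simp only [lvPhi]
    rw [← Summable.tsum_finsetSum fun _ _ => ENNReal.summable]
    refine ENNReal.tsum_le_tsum fun p => ?_
    split_ifs with hc
    · simp
    · rw [← Finset.mul_sum]
      exact mul_le_mul' le_rfl (ih _ _)

variable (μ)

theorem levels [IsProbabilityMeasure μ] {h : Site d →+ ℤ} (hw : ∑' p, pw μ h p = 1) {L : ℝ≥0∞}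
    (hL : ∑' p, pw μ h p * (p.1 : ℝ≥0∞) ≤ L) (z : h.ker) (n I : ℕ) :
    (n : ℝ≥0∞) * I * ((aN (pw μ h) (sd h) (sc h))^[I] 1) z ≤
      n * ∑ m ∈ Finset.range n, DS μ h z m + I ^ 2 * L := by
  change (n : ℝ≥0∞) * I * lvA μ h I z ≤ _
  have hanti : Antitone fun i => lvA μ h i z := antitone_nat_of_succ_le fun i => lvA_anti hw i z
  calc (n : ℝ≥0∞) * I * lvA μ h I z
      = ∑ i ∈ Finset.range I, (n : ℝ≥0∞) * lvA μ h I z := by
        rw [Finset.sum_const, Finset.card_range, nsmul_eq_mul]; ring
    _ ≤ ∑ i ∈ Finset.range I, ((n : ℝ≥0∞) * lvPhi μ h i n z + I * L) := by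
        refine Finset.sum_le_sum fun i hi => ?_
        rw [Finset.mem_range] at hi
        calc (n : ℝ≥0∞) * lvA μ h I z ≤ n * lvA μ h i z := by gcongr; exact hanti hi.le
          _ ≤ n * lvPhi μ h i n z + i * L := lv_low hw hL i n z
          _ ≤ _ := by gcongr
    _ = n * ∑ i ∈ Finset.range I, lvPhi μ h i n z + I ^ 2 * L := by
        rw [Finset.sum_add_distrib, ← Finset.mul_sum, Finset.sum_const, Finset.card_range,
          nsmul_eq_mul]
        ring
    _ ≤ _ := by gcongr; exact lv_sum I n z

end Vale.Agent.P147.D3
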