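import Vale.Agent.P147.D3.Base

/-! Weights of irreducible pairs, contacts, mean length. -/

open MeasureTheory Filter
open scoped ENNReal

namespace Vale.Agent.P147.D3

variable {d : ℕ}

section
variable (μ : Measure (Row d)) [IsProbabilityMeasure μ]

lemma pairB_mult (h : Site d →+ ℤ) : (sG h).Mult (WS μ) := (upG_mult μ h).prod (upG_mult μ h)

omit [IsProbabilityMeasure μ] in
lemma pairB_U (h : Site d →+ ℤ) (k : ℕ) : (sG h).U (WS μ) k = uu μ h k * uu μ h k := by
  have := Grading.U_prod (upG h) (upG h) (fun x => wt μ x.toList) (fun x => wt μ x.toList) k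
  rw [upG_U] at this
  exact this

lemma pairB_U_le (h : Site d →+ ℤ) (k : ℕ) : (sG h).U (WS μ) k ≤ 1 := by
  rw [pairB_U]
  calc uu μ h k * uu μ h k ≤ 1 * 1 := mul_le_mul' (uu_le_one μ h k) (uu_le_one μ h k)
    _ = 1 := one_mul 1

omit [IsProbabilityMeasure μ] in
lemma pairB_low {h : Site d →+ ℤ} {q : ℝ≥0∞} {k₀ : ℕ}
    (hlow : ∀ k, k₀ ≤ k → q ≤ uu μ h k) : ∀ k, k₀ ≤ k → q * q ≤ (sG h).U (WS μ) k := by
  intro k hk
  rw [pairB_U]
  exact mul_le_mul' (hlow k hk) (hlow k hk)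

theorem tsum_pw {h : Site d →+ ℤ} {q : ℝ≥0∞} (hq : q ≠ 0) {k₀ : ℕ}
    (hlow : ∀ k, k₀ ≤ k → q ≤ uu μ h k) : ∑' p, pw μ h p = 1 := by
  have e : ∑' p, pw μ h p = ∑' j, (sG h).f (WS μ) j := by
    rw [ENNReal.tsum_sigma' (fun p : SIrr h => pw μ h p)]
    rfl
  rw [e]
  exact Grading.tsum_f_eq_one (pairB_mult μ h) (pairB_U_le μ h) (mul_ne_zero hq hq)
    (pairB_low μ hlow)

/-- Level statistic of pairs. -/
noncomputable def lev3 (h : Site d →+ ℤ) (x : SM d) (i : ℕ) : ℝ≥0∞ :=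
  (lv h 0 x.a i : ℝ≥0∞) * (lv h 0 x.b i : ℝ≥0∞)

lemma lev3_lev (h : Site d →+ ℤ) : (sG h).Lev (lev3 h) := by
  exact @Grading.Lev.prod _ _ _ _ (upG h) (upG h) _ _ (@upG_lev d h) (@upG_lev d h)

open Classical in
lemma pairB_card {h : Site d →+ ℤ} {j : ℕ} {x : SM d} (hx : x ∈ (sG h).G j) :
    ∑' z : h.ker, (if ¬ SDj (z : Site d) x then (1 : ℝ≥0∞) else 0) ≤
      ∑ i ∈ Finset.range j, lev3 h x i := by
  rw [mem_sG] at hx
  let A : ℕ → Finset (Site d) := fun i => (exits 0 x.a).filter (fun y => h y = (i : ℤ))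
  let B : ℕ → Finset (Site d) := fun i => (exits 0 x.b).filter (fun y => h y = (i : ℤ))
  let T : Finset (Site d) := (Finset.range j).biUnion
    (fun i => (A i ×ˢ B i).image (fun p => p.1 - p.2))
  have hT : ∀ z : Site d, h z = 0 → ¬ SDj z x → z ∈ T := by
    intro z hz1 hz2
    rw [SDj, Finset.not_disjoint_iff] at hz2
    obtain ⟨w, hw1, hw2⟩ := hz2
    have e : exits z x.b = (exits 0 x.b).image (· + z) := by
      rw [← exits_add, zero_add]
    rw [e, Finset.mem_image] at hw2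
    obtain ⟨v, hv, rfl⟩ := hw2
    have h1 := mem_exits_height hx.2 hv
    simp only [map_zero, zero_add] at h1
    simp only [T, Finset.mem_biUnion, Finset.mem_range, Finset.mem_image, Finset.mem_product]
    refine ⟨(h v).toNat, by omega, (v + z, v), ⟨?_, ?_⟩, by simp⟩
    · refine Finset.mem_filter.2 ⟨hw1, ?_⟩
      rw [map_add, hz1]
      omega
    · refine Finset.mem_filter.2 ⟨hv, ?_⟩
      change h v = ((h v).toNat : ℤ)
      omega
  calc ∑' z : h.ker, (if ¬ SDj (z : Site d) x then (1 : ℝ≥0∞) else 0)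
      ≤ ∑' z : h.ker, (if (z : Site d) ∈ T then (1 : ℝ≥0∞) else 0) := by
        refine ENNReal.tsum_le_tsum fun z => ?_
        by_cases h1 : SDj (z : Site d) x
        · rw [if_neg (fun hh => hh h1)]
          exact bot_le
        · have h2 : (z : Site d) ∈ T :=
            hT _ (by have := z.2; rwa [AddMonoidHom.mem_ker] at this) h1
          rw [if_pos h1, if_pos h2]
    _ ≤ ∑' z : Site d, (if z ∈ T then (1 : ℝ≥0∞) else 0) :=
        ENNReal.tsum_comp_le_tsum_of_injective Subtype.val_injective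
          (fun z : Site d => if z ∈ T then (1 : ℝ≥0∞) else 0)
    _ = ∑ z ∈ T, (if z ∈ T then (1 : ℝ≥0∞) else 0) := by
        refine tsum_eq_sum fun z hz => ?_
        rw [if_neg hz]
    _ = (T.card : ℝ≥0∞) := by
        rw [Finset.sum_congr rfl fun z hz => if_pos hz]
        simp
    _ ≤ ((∑ i ∈ Finset.range j, (A i).card * (B i).card : ℕ) : ℝ≥0∞) := by
        have : T.card ≤ ∑ i ∈ Finset.range j, (A i).card * (B i).card := by
          refine Finset.card_biUnion_le.trans (Finset.sum_le_sum fun i _ => ?_)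
          refine Finset.card_image_le.trans ?_
          rw [Finset.card_product]
        exact_mod_cast this
    _ = ∑ i ∈ Finset.range j, lev3 h x i := by
        push_cast
        rfl

theorem tsum_contacts {h : Site d →+ ℤ} {q : ℝ≥0∞} (hq : q ≠ 0) {k₀ : ℕ}
    (hlow : ∀ k, k₀ ≤ k → q ≤ uu μ h k)
    (hb : ∑' j, ∑' x : (upG h).I j, wt μ x.1.toList * ((exits 0 x.1.toList).card : ℝ≥0∞) ≠ ∞) :
    ∑' y, aD (pw μ h) (sd h) (sc h) 1 y ≠ ∞ := by
  classical
  set b := ∑' j, ∑' x : (upG h).I j,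
      wt μ x.1.toList * ((exits 0 x.1.toList).card : ℝ≥0∞) with hbdef
  have hVb : ∀ R i, i < R → (upG h).V (fun x => wt μ x.toList)
      (fun x i => (lv h 0 x.toList i : ℝ≥0∞)) R i ≤ b := by
    intro R i hi
    refine (Grading.V_le (upG_mult μ h) (fun k => ?_) (@upG_lev d h) hi).trans ?_
    · rw [upG_U]; exact uu_le_one μ h k
    · refine ENNReal.tsum_le_tsum fun j => ENNReal.tsum_le_tsum fun x => ?_
      gcongr
      have hx : x.1.toList ∈ Up h j := mem_upG.1 x.2.1
      have := sum_lv h hx 0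
      simp only [map_zero, zero_add] at this
      exact le_of_eq (by exact_mod_cast this)
  have hV : ∀ R i, i < R → (sG h).V (WS μ) (lev3 h) R i ≤ b * b := by
    intro R i hi
    have e : (sG h).V (WS μ) (lev3 h) R i = (upG h).V (fun x => wt μ x.toList)
        (fun x i => (lv h 0 x.toList i : ℝ≥0∞)) R i *
        (upG h).V (fun x => wt μ x.toList) (fun x i => (lv h 0 x.toList i : ℝ≥0∞)) R i :=
      Grading.V_prod (upG h) (upG h) (fun x => wt μ x.toList) (fun x => wt μ x.toList)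
        (fun x i => (lv h 0 x.toList i : ℝ≥0∞)) (fun x i => (lv h 0 x.toList i : ℝ≥0∞)) R i
    rw [e]
    exact mul_le_mul' (hVb R i hi) (hVb R i hi)
  have hfin := Grading.tsum_lev_le (pairB_mult μ h) (pairB_low μ hlow) (lev3_lev h) hV
  have hle : ∑' y, aD (pw μ h) (sd h) (sc h) 1 y ≤
      ∑' j, ∑' x : (sG h).I j, WS μ x * ∑ r ∈ Finset.range j, lev3 h x r := by
    have e1 : ∀ y : h.ker, aD (pw μ h) (sd h) (sc h) 1 y =
        ∑' p : SIrr h, pw μ h p * (if ¬ SDj (y : Site d) (p.2 : SM d) then 1 else 0) := by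
      intro y
      rw [aD]
      refine tsum_congr fun p => ?_
      by_cases h1 : SDj (y : Site d) (p.2 : SM d)
      · rw [if_neg (show ¬ sc h y p from fun hh => hh h1), if_neg (fun hh => hh h1), mul_zero]
      · rw [if_pos (show sc h y p from h1), if_pos h1]
        rfl
    simp only [e1]
    rw [ENNReal.tsum_comm]
    rw [ENNReal.tsum_sigma' (fun p : SIrr h => ∑' y : h.ker, pw μ h p *
      (if ¬ SDj (y : Site d) (p.2 : SM d) then 1 else 0))]
    refine ENNReal.tsum_le_tsum fun j => ENNReal.tsum_le_tsum fun x => ?_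
    rw [ENNReal.tsum_mul_left]
    exact mul_le_mul' le_rfl (pairB_card x.2.1)
  intro htop
  rw [htop, top_le_iff] at hle
  rw [hle, ENNReal.top_mul (by
    simp only [ne_eq, mul_eq_zero, hq, or_self, not_false_eq_true]), top_le_iff] at hfin
  exact ENNReal.mul_ne_top hb hb hfin

theorem tsum_len {h : Site d →+ ℤ} {q : ℝ≥0∞} (hq : q ≠ 0) {k₀ : ℕ}
    (hlow : ∀ k, k₀ ≤ k → q ≤ uu μ h k) : ∑' p, pw μ h p * (p.1 : ℝ≥0∞) ≠ ∞ := by
  have hn : (sG h).Lev (fun _ _ => (1 : ℝ≥0∞)) := by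
    intro j k a b _ _ i _
    simp
  have hV : ∀ R i, i < R → (sG h).V (WS μ) (fun _ _ => (1 : ℝ≥0∞)) R i ≤ 1 := by
    intro R i _
    have e : (sG h).V (WS μ) (fun _ _ => (1 : ℝ≥0∞)) R i = (sG h).U (WS μ) R := by
      rw [Grading.V, Grading.U]
      exact tsum_congr fun x => mul_one _
    rw [e]
    exact pairB_U_le μ h R
  have hfin := Grading.tsum_lev_le (pairB_mult μ h) (pairB_low μ hlow) hn hV
  have e : ∑' p, pw μ h p * (p.1 : ℝ≥0∞) =
      ∑' j, ∑' x : (sG h).I j, WS μ x * ∑ r ∈ Finset.range j, (1 : ℝ≥0∞) := by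
    rw [ENNReal.tsum_sigma' (fun p : SIrr h => pw μ h p * (p.1 : ℝ≥0∞))]
    refine tsum_congr fun j => tsum_congr fun x => ?_
    simp only [Finset.sum_const, Finset.card_range, nsmul_eq_mul, mul_one]
    rfl
  rw [e]
  intro htop
  rw [htop, ENNReal.top_mul (by
    simp only [ne_eq, mul_eq_zero, hq, or_self, not_false_eq_true]), top_le_iff] at hfin
  exact ENNReal.one_ne_top hfin

end

end Vale.Agent.P147.D3
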