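import Vale.Agent.P147.D3.Base

/-! Irreducible pairs with prescribed displacement. -/

open MeasureTheory Filter
open scoped ENNReal

namespace Vale.Agent.P147.D3

variable {d : ℕ}

section
variable (μ : Measure (Row d)) [IsProbabilityMeasure μ]

theorem exists_steps (hd : 3 ≤ d) (hμ : Elliptic μ) {h : Site d →+ ℤ}
    (hsurj : Function.Surjective h) :
    (∃ ζ : h.ker, ∀ g : h.ker, ∃ p, sd h p = ζ + g ∧ pw μ h p ≠ 0) ∧
    ∃ g₁ g₂ : h.ker, ∀ a b a' b' : ℕ,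
      a • g₁ + b • g₂ = a' • g₁ + b' • g₂ → a = a' ∧ b = b' := by
  obtain ⟨L, hL⟩ := exists_bound h
  constructor
  · obtain ⟨b, hb, hbirr⟩ := exists_irr hsurj hL (k := 2 * L + 1) (by omega) (by omega)
    obtain ⟨y, hy⟩ := hsurj ((2 * L + 1 : ℕ) : ℤ)
    have hker : dsp b - y ∈ h.ker := by
      rw [AddMonoidHom.mem_ker, map_sub, hy, hb.2.2, sub_self]
    refine ⟨⟨dsp b - y, hker⟩, fun g => ?_⟩
    obtain ⟨a, ha, hag⟩ := exists_up hsurj hL (k := 2 * L + 1) (y := y - (g : Site d)) (by omega)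
      (by rw [map_sub, hy, AddMonoidHom.mem_ker.1 g.2, sub_zero])
    let x : SM d := (FreeMonoid.ofList a, FreeMonoid.ofList b)
    have hxa : x.a = a := rfl
    have hxb : x.b = b := rfl
    have hx : x ∈ (sG h).I (2 * L + 1) := by
      refine ⟨mem_sG.2 ⟨hxa ▸ ha, hxb ▸ hb⟩, by omega, ?_⟩
      intro j hj0 hjk y₁ hy₁ y₂ hy₂ heq
      rw [mem_sG] at hy₁ hy₂
      have h1 : x.b = y₁.b ++ y₂.b := by
        rw [heq]
        simp [SM.b]
      rw [hxb] at h1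
      exact hbirr j hj0 hjk _ hy₁.2 _ hy₂.2 h1
    refine ⟨⟨2 * L + 1, x, hx⟩, ?_, ?_⟩
    · apply Subtype.ext
      change x.disp = _
      rw [SM.disp, hxa, hxb, hag]
      push_cast
      abel
    · change WS μ x ≠ 0
      rw [WS, hxa, hxb]
      exact mul_ne_zero (wt_ne_zero μ hμ _) (wt_ne_zero μ hμ _)
  · obtain ⟨g₁, g₂, hg₁, hg₂, hind⟩ := exists_indep hd hsurj
    refine ⟨⟨g₁, hg₁⟩, ⟨g₂, hg₂⟩, fun a b a' b' hab => ?_⟩
    have h1 := congrArg (Subtype.val) hab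
    exact hind a b a' b' (by simpa using h1)

end

end Vale.Agent.P147.D3
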