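import Vale.Agent.P147.D3.Abs
import Vale.Agent.P147.D3.Conc
import Vale.Agent.P147.D3.PairB
import Vale.Agent.P147.D3.PairC
import Vale.Agent.P147.D3.Lev

open MeasureTheory Filter
open scoped ENNReal

namespace Vale.Agent.P147.D3

lemma low_half_pow (j : ℕ) : (2 : ℝ≥0∞) ^ j * (1 / 2) ^ (j + 1) = 1 / 2 := by
  rw [pow_succ, ← mul_assoc, ← mul_pow, one_div, ENNReal.mul_inv_cancel two_ne_zero
    ENNReal.ofNat_ne_top, one_pow, one_mul]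

lemma low_quarter : (1 / 4 : ℝ≥0∞) + 1 / 4 = 1 / 2 := by
  have h4 : (4 : ℝ≥0∞) = 2 * 2 := by norm_num
  rw [one_div, one_div, h4, ENNReal.mul_inv (Or.inl two_ne_zero) (Or.inl ENNReal.ofNat_ne_top),
    ← mul_add, ENNReal.inv_two_add_inv_two, mul_one]

lemma low_arith {C Λ L A D : ℝ≥0∞} {j : ℕ} (hC0 : C ≠ 0) (hCt : C ≠ ∞) (hΛ0 : Λ ≠ 0)
    (hΛt : Λ ≠ ∞) (hL : 4 * L ≤ C) (hA : (1 / 2 : ℝ≥0∞) ^ (j + 1) ≤ A)
    (h : C * (2 * Λ) ^ j * Λ ^ j * A ≤ C * (2 * Λ) ^ j * D + (Λ ^ j) ^ 2 * L) :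
    (Λ / 2) ^ j / 4 ≤ D := by
  have h4 : (4 : ℝ≥0∞) ≠ 0 := by norm_num
  have h4t : (4 : ℝ≥0∞) ≠ ∞ := ENNReal.ofNat_ne_top
  have hL' : L ≤ C * (1 / 4) := by
    rw [mul_one_div, ENNReal.le_div_iff_mul_le (Or.inl h4) (Or.inl h4t), mul_comm]
    exact hL
  have e1 : C * (Λ ^ j) ^ 2 * (1 / 2) ≤ C * (2 * Λ) ^ j * Λ ^ j * A := by
    calc C * (Λ ^ j) ^ 2 * (1 / 2) = C * (2 * Λ) ^ j * Λ ^ j * (1 / 2) ^ (j + 1) := by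
          have e := low_half_pow j
          calc C * (Λ ^ j) ^ 2 * (1 / 2) = C * (Λ ^ j) ^ 2 * (2 ^ j * (1 / 2) ^ (j + 1)) := by
                rw [e]
            _ = _ := by rw [mul_pow]; ring
      _ ≤ _ := by gcongr
  have e2 : (Λ ^ j) ^ 2 * L ≤ C * (Λ ^ j) ^ 2 * (1 / 4) := by
    calc (Λ ^ j) ^ 2 * L ≤ (Λ ^ j) ^ 2 * (C * (1 / 4)) := by gcongr
      _ = _ := by ring
  have e3 : C * (Λ ^ j) ^ 2 * (1 / 4) + C * (Λ ^ j) ^ 2 * (1 / 4) ≤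
      C * (2 * Λ) ^ j * D + C * (Λ ^ j) ^ 2 * (1 / 4) := by
    rw [← mul_add, low_quarter]
    exact e1.trans (h.trans (by gcongr))
  have hfin : C * (Λ ^ j) ^ 2 * (1 / 4) ≠ ∞ :=
    ENNReal.mul_ne_top (ENNReal.mul_ne_top hCt (ENNReal.pow_ne_top (ENNReal.pow_ne_top hΛt)))
      (ENNReal.div_ne_top ENNReal.one_ne_top h4)
  have e4 := (ENNReal.add_le_add_iff_right hfin).1 e3
  have hn0 : C * (2 * Λ) ^ j ≠ 0 :=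
    mul_ne_zero hC0 (pow_ne_zero _ (mul_ne_zero two_ne_zero hΛ0))
  have hnt : C * (2 * Λ) ^ j ≠ ∞ :=
    ENNReal.mul_ne_top hCt (ENNReal.pow_ne_top (ENNReal.mul_ne_top ENNReal.ofNat_ne_top hΛt))
  rw [← ENNReal.mul_le_mul_iff_right hn0 hnt]
  refine le_trans (le_of_eq ?_) e4
  have e5 : (2 : ℝ≥0∞) ^ j * (Λ / 2) ^ j = Λ ^ j := by
    rw [← mul_pow, ENNReal.mul_div_cancel two_ne_zero ENNReal.ofNat_ne_top]
  calc C * (2 * Λ) ^ j * ((Λ / 2) ^ j / 4)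
      = C * Λ ^ j * (2 ^ j * (Λ / 2) ^ j) * (1 / 4) := by
        rw [mul_pow, ← mul_one_div]; ring
    _ = _ := by rw [e5]; ring

variable {d : ℕ} (μ : Measure (Row d)) [IsProbabilityMeasure μ]

theorem pairs_low (hd : 3 ≤ d) (hμ : Elliptic μ) {h : Site d →+ ℤ}
    (hsurj : Function.Surjective h) {q : ℝ≥0∞} (hq : q ≠ 0) {k₀ : ℕ}
    (hlow : ∀ k, k₀ ≤ k → q ≤ uu μ h k)
    (hb : ∑' j, ∑' x : (upG h).I j, wt μ x.1.toList * ((exits 0 x.1.toList).card : ℝ≥0∞) ≠ ∞)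
    {Λ : ℕ} (hΛ : 2 ≤ Λ) :
    ∃ y : Site d, h y = 0 ∧ ∃ C₀ : ℕ, 0 < C₀ ∧ ∀ j : ℕ,
      ((Λ : ℝ≥0∞) / 2) ^ j / 4 ≤ ∑ m ∈ Finset.range (C₀ * (2 * Λ) ^ j), DS μ h y m := by
  have hw := tsum_pw μ hq hlow
  have hLt := tsum_len μ hq hlow
  obtain ⟨⟨ζ, hx⟩, g₁, g₂, hind⟩ := exists_steps μ hd hμ hsurj
  obtain ⟨C, hC, hK⟩ := conc hw hx hind
  have hD := tsum_contacts μ hq hlow hb
  obtain ⟨y, hy⟩ := abs_avoid hw hC hK hD hΛ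
  obtain ⟨C₀, hC₀⟩ := ENNReal.exists_nat_gt
    (ENNReal.mul_ne_top (a := 4) ENNReal.ofNat_ne_top hLt)
  have hC₀p : 0 < C₀ := by
    have := bot_le.trans_lt hC₀
    exact_mod_cast (bot_eq_zero (α := ℝ≥0∞) ▸ this : (0 : ℝ≥0∞) < C₀)
  refine ⟨y, y.2, C₀, hC₀p, fun j => ?_⟩
  have h1 := levels μ hw le_rfl y (C₀ * (2 * Λ) ^ j) (Λ ^ j)
  push_cast at h1
  exact low_arith (by exact_mod_cast hC₀p.ne') (ENNReal.natCast_ne_top _)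
    (by exact_mod_cast (by omega : Λ ≠ 0)) (ENNReal.natCast_ne_top _) hC₀.le (hy j) h1

end Vale.Agent.P147.D3
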