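import Vale.Agent.P147.D3.SecAvg

/-! Averaged second moment with exponentially many levels. -/

open MeasureTheory Filter
open scoped ENNReal

namespace Vale.Agent.P147.D3

variable {d : ℕ} (μ : Measure (Row d)) [IsProbabilityMeasure μ]

theorem second3 (hμ : Elliptic μ) {h : Site d →+ ℤ} (hsurj : Function.Surjective h)
    {q : ℝ≥0∞} (hq : q ≠ 0) {k₀ : ℕ} (hlow : ∀ k, k₀ ≤ k → q ≤ uu μ h k)
    {b : ℝ≥0∞} (hb : ∑' j, ∑' x : (upG h).I j,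
      wt μ x.1.toList * ((exits 0 x.1.toList).card : ℝ≥0∞) = b) (hbt : b ≠ ∞)
    {Λ : ℕ} (hΛ : 2 ≤ Λ) {y : Site d} (hy : h y = 0) {C₀ : ℕ} (hC₀ : 0 < C₀)
    (hlow2 : ∀ j : ℕ,
      ((Λ : ℝ≥0∞) / 2) ^ j / 4 ≤ ∑ m ∈ Finset.range (C₀ * (2 * Λ) ^ j), DS μ h y m) :
    ∃ (M : ℕ) (C₃ : ℝ≥0∞), 0 < M ∧ C₃ ≠ ∞ ∧ ∀ j : ℕ, ∃ G : ℕ → Set (List (Dir d)),
      (∀ i, G i ⊆ Up h (M * i)) ∧
      (∀ i, k₀ ≤ i → i < C₀ * (2 * Λ) ^ j → q / 2 ≤ ∑' l : G i, wt μ l) ∧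
      ∑ i ∈ Finset.range (C₀ * (2 * Λ) ^ j),
        ∫⁻ ω, (∑' l : G i, qw ω (-dsp (l : List (Dir d))) l) ^ 2 ∂(envLaw μ) ≤
        C₃ * (C₀ * (2 * Λ) ^ j : ℕ) * 4 ^ j := by
  obtain ⟨M, C, hM, hC, hsum⟩ := second_avg μ hμ hsurj hb hbt hy
  have hq1 : q ≤ 1 := (hlow k₀ le_rfl).trans (uu_le_one μ h k₀)
  have hqt : q ≠ ∞ := ne_top_of_le_ne_top ENNReal.one_ne_top hq1
  -- the constant
  obtain ⟨B, hB⟩ : ∃ B : ℕ, 2 * M * b / q < B :=
    ENNReal.exists_nat_gt (ENNReal.div_ne_top (ENNReal.mul_ne_top (by finiteness) hbt) hq)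
  have hB0 : 0 < B := by
    rcases Nat.eq_zero_or_pos B with h0 | h0
    · rw [h0] at hB; simp at hB
    · exact h0
  have hBq : 2 * M * b ≤ B * q := by
    rw [← ENNReal.div_le_iff hq hqt]; exact hB.le
  refine ⟨M, 4 * C * (1 + M) * B * C₀, hM, by finiteness, fun j => ?_⟩
  set J := C₀ * (2 * Λ) ^ j with hJ
  have hJ0 : 0 < J := Nat.mul_pos hC₀ (Nat.pow_pos (by omega))
  set R := J * B - 1 with hR
  have hR1 : R + 1 = J * B := by
    have : 0 < J * B := Nat.mul_pos hJ0 hB0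
    omega
  have hR1' : (R : ℝ≥0∞) + 1 = J * B := by exact_mod_cast hR1
  refine ⟨fun i => {l | l ∈ Up h (M * i) ∧ (exits 0 l).card ≤ R}, fun i l hl => hl.1, ?_, ?_⟩
  · -- the mean
    intro i hi hiJ
    have hMi : i ≤ M * i := Nat.le_mul_of_pos_left i hM
    have h1 := uu_le_trunc μ hb (M * i) R
    have h2 := hlow (M * i) (by omega)
    set T := ∑' l : {l : List (Dir d) // l ∈ Up h (M * i) ∧ (exits 0 l).card ≤ R}, wt μ l.1
      with hT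
    change q / 2 ≤ T
    have h3 : ((M * i : ℕ) : ℝ≥0∞) * b ≤ ((R : ℝ≥0∞) + 1) * (q / 2) := by
      rw [hR1']
      calc ((M * i : ℕ) : ℝ≥0∞) * b ≤ ((M * J : ℕ) : ℝ≥0∞) * b := by
            gcongr
        _ = J * (2 * M * b) / 2 := by
            push_cast
            rw [show (J : ℝ≥0∞) * (2 * M * b) = (M * J * b) * 2 by ring,
              ENNReal.mul_div_cancel_right (by simp) (by simp)]
        _ ≤ J * (B * q) / 2 := by gcongr
        _ = J * B * (q / 2) := by rw [← mul_assoc, mul_div_assoc]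
    have h4 : ((R : ℝ≥0∞) + 1) * q ≤ ((R : ℝ≥0∞) + 1) * (T + q / 2) := by
      calc ((R : ℝ≥0∞) + 1) * q ≤ ((R : ℝ≥0∞) + 1) * uu μ h (M * i) := by gcongr
        _ ≤ _ := h1
        _ ≤ ((R : ℝ≥0∞) + 1) * T + ((R : ℝ≥0∞) + 1) * (q / 2) := by gcongr
        _ = _ := by rw [mul_add]
    have h5 : q ≤ T + q / 2 :=
      (ENNReal.mul_le_mul_iff_right (by simp) (by finiteness)).1 h4
    have h6 : q / 2 + q / 2 ≤ T + q / 2 := by rw [ENNReal.add_halves]; exact h5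
    exact (ENNReal.add_le_add_iff_right (ENNReal.div_ne_top hqt (by simp))).1 h6
  · -- the second moment
    have h1 := hsum J R J
    set T := ∑ i ∈ Finset.range J, ∫⁻ ω, (∑' l : {l : List (Dir d) // l ∈ Up h (M * i) ∧
      (exits 0 l).card ≤ R}, qw ω (-dsp l.1) l.1) ^ 2 ∂(envLaw μ) with hT
    change T ≤ _
    have hX0 : ((Λ : ℝ≥0∞) / 2) ^ j / 4 ≠ 0 := by
      have h3 : (Λ : ℝ≥0∞) / 2 ≠ 0 := by
        rw [Ne, ENNReal.div_eq_zero_iff, not_or]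
        exact ⟨by exact_mod_cast (by omega : Λ ≠ 0), by simp⟩
      rw [Ne, ENNReal.div_eq_zero_iff, not_or]
      exact ⟨pow_ne_zero j h3, by simp⟩
    have hXt : ((Λ : ℝ≥0∞) / 2) ^ j / 4 ≠ ∞ := by finiteness
    have h2 : T * (((Λ : ℝ≥0∞) / 2) ^ j / 4) ≤ C * (J + M * J) * (J * B) := by
      calc T * (((Λ : ℝ≥0∞) / 2) ^ j / 4) ≤ T * ∑ m ∈ Finset.range J, DS μ h y m := by
            gcongr
            exact hlow2 j
        _ ≤ _ := h1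
        _ = _ := by rw [hR1']
    have h3 : (4 : ℝ≥0∞) ^ j * ((Λ : ℝ≥0∞) / 2) ^ j = (2 * Λ) ^ j := by
      rw [← mul_pow]
      congr 1
      rw [show (4 : ℝ≥0∞) = 2 * 2 by norm_num, mul_assoc,
        ENNReal.mul_div_cancel (by simp) (by simp)]
    have h4 : (4 * C * (1 + M) * B * C₀) * (J : ℝ≥0∞) * 4 ^ j * (((Λ : ℝ≥0∞) / 2) ^ j / 4) =
        C * (J + M * J) * (J * B) := by
      have h5 : (J : ℝ≥0∞) = C₀ * (2 * Λ) ^ j := by
        rw [hJ]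
        push_cast
        rfl
      calc (4 * C * (1 + M) * B * C₀) * (J : ℝ≥0∞) * 4 ^ j * (((Λ : ℝ≥0∞) / 2) ^ j / 4)
          = (C * (1 + M) * B * J) * (C₀ * (4 ^ j * ((Λ : ℝ≥0∞) / 2) ^ j)) * (4 / 4) := by
            rw [div_eq_mul_inv, div_eq_mul_inv 4 4]
            ring
        _ = (C * (1 + M) * B * J) * J := by
            rw [h3, ← h5, ENNReal.div_self (by simp) (by simp), mul_one]
        _ = _ := by ring
    rw [← h4] at h2
    exact (ENNReal.mul_le_mul_iff_left hX0 hXt).1 h2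

end Vale.Agent.P147.D3
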