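import Vale.Agent.P147.D3.Base

/-! Tail of the quenched probability of escaping upwards, for uniformly elliptic laws. -/

open MeasureTheory Filter
open scoped ENNReal

namespace Vale.Agent.P147.D3

namespace TailAux

variable {d : ℕ}

lemma tinv_upI (h : Site d →+ ℤ) : TInv (UpI h) := by
  refine tinv_inter (tinv_stayUp h) ?_
  intro z X
  simp only [Set.mem_ofPred_eq, tr, map_add]
  constructor
  · intro H K
    obtain ⟨n, hn⟩ := H (K + h z)
    exact ⟨n, by linarith⟩
  · intro H K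
    obtain ⟨n, hn⟩ := H (K - h z)
    exact ⟨n, by linarith⟩

lemma measurableSet_upI (h : Site d →+ ℤ) : MeasurableSet (UpI h) := by
  refine (measurableSet_stayUp h).inter ?_
  have : {X : ℕ → Site d | ∀ K : ℤ, ∃ n, K ≤ h (X n)} = ⋂ K : ℤ, ⋃ n : ℕ, {X | K ≤ h (X n)} := by
    ext X; simp
  rw [this]
  refine MeasurableSet.iInter fun K => MeasurableSet.iUnion fun n => ?_
  exact measurableSet_local n _ fun X Y hXY hX => by rw [← hXY n le_rfl]; exact hX

/-- Segments that stay at heights in `[0, n)` before their last step, and end at height at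
least `n`. -/
def SP (h : Site d →+ ℤ) (n : ℕ) : Set (List (Dir d)) :=
  {l | (∀ a b, l = a ++ b → 0 ≤ h (dsp a)) ∧ (∀ a b, l = a ++ b → b ≠ [] → h (dsp a) < n) ∧
    (n : ℤ) ≤ h (dsp l)}

/-- Total quenched weight of the segments. -/
noncomputable def GG (h : Site d →+ ℤ) (n : ℕ) (ω : Env d) : ℝ≥0∞ := ∑' l : SP h n, qw ω 0 l

/-- The path reaches height `n` without going below zero. -/
def EE (h : Site d →+ ℤ) (n : ℕ) : Set (ℕ → Site d) :=
  {X | ∃ m, (n : ℤ) ≤ h (X m) ∧ ∀ i ≤ m, 0 ≤ h (X i)}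

lemma SP_free (h : Site d →+ ℤ) (n : ℕ) : Free (SP h n) := by
  intro a ha b hab
  by_contra hb
  have h1 := hab.2.1 a b rfl hb
  have h2 := ha.2.2
  omega

lemma SP_zero (h : Site d →+ ℤ) : SP h 0 = {[]} := by
  ext l
  simp only [SP, Set.mem_ofPred_eq, Set.mem_singleton_iff]
  constructor
  · rintro ⟨_, h2, _⟩
    by_contra hl
    have := h2 [] l rfl hl
    simp at this
  · rintro rfl
    refine ⟨fun a b hab => ?_, fun a b hab hb => ?_, by simp⟩
    · have := List.append_eq_nil_iff.1 hab.symm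
      rw [this.1]; simp
    · have := List.append_eq_nil_iff.1 hab.symm
      exact absurd this.2 hb

lemma GG_zero (h : Site d →+ ℤ) (ω : Env d) : GG h 0 ω = 1 := by
  rw [GG, SP_zero, tsum_singleton ([] : List (Dir d)) (fun l => qw ω 0 l), qw_nil]

lemma measurable_GG (h : Site d →+ ℤ) (n : ℕ) : Measurable (GG h n : Env d → ℝ≥0∞) :=
  Measurable.tsum fun l : SP h n => measurable_qw 0 (l : List (Dir d))

lemma qw_loc {h : Site d →+ ℤ} {n : ℕ} {l : List (Dir d)} (hl : l ∈ SP h n) {ω ω' : Env d}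
    (hω : ∀ y, h y < n → ω y = ω' y) : qw ω 0 l = qw ω' 0 l := by
  refine qw_congr fun y hy => hω y ?_
  obtain ⟨a, b, hab, hb, rfl⟩ := mem_exits.1 hy
  rw [zero_add]
  exact hl.2.1 a b hab hb

lemma GG_loc (h : Site d →+ ℤ) {n m : ℕ} (hnm : n ≤ m) {ω ω' : Env d}
    (hω : ∀ y, h y < m → ω y = ω' y) : GG h n ω = GG h n ω' := by
  refine tsum_congr fun l => qw_loc l.2 fun y hy => hω y ?_
  have : (n : ℤ) ≤ m := by exact_mod_cast hnm
  omega

lemma good_zero {X : ℕ → Site d} (hX : X ∈ Good 0) : X 0 = 0 := by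
  obtain ⟨l, _, hXl⟩ := hX 0
  simpa using hXl 0 (by omega)

lemma exists_SP {h : Site d →+ ℤ} {n : ℕ} {X : ℕ → Site d} (hg : X ∈ Good 0) (hX : X ∈ EE h n) :
    ∃ l ∈ SP h n, X ∈ cyl 0 l := by
  classical
  obtain ⟨m, hm1, hm2⟩ := hX
  have hex : ∃ m, (n : ℤ) ≤ h (X m) := ⟨m, hm1⟩
  obtain ⟨l, hl, hXl⟩ := hg (Nat.find hex)
  rw [mem_lists] at hl
  have hle : Nat.find hex ≤ m := Nat.find_min' hex hm1
  refine ⟨l, ⟨fun a b hab => ?_, fun a b hab hb => ?_, ?_⟩, hXl⟩
  · have h1 := cyl_pos hXl hab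
    rw [zero_add] at h1
    rw [← h1]
    refine hm2 _ ?_
    have : l.length = a.length + b.length := by rw [hab, List.length_append]
    omega
  · have h1 := cyl_pos hXl hab
    rw [zero_add] at h1
    rw [← h1]
    have h2 : l.length = a.length + b.length := by rw [hab, List.length_append]
    have h3 : 0 < b.length := List.length_pos_iff.2 hb
    have := Nat.find_min hex (m := a.length) (by omega)
    exact not_le.1 this
  · have h1 := cyl_pos hXl (a := l) (b := []) (by simp)
    rw [zero_add, hl] at h1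
    rw [← h1]
    exact Nat.find_spec hex

lemma cyl_pos' {X : ℕ → Site d} {l : List (Dir d)} (hX : X ∈ cyl 0 l) {h : Site d →+ ℤ} {n : ℕ}
    (hl : l ∈ SP h n) : ∀ i ≤ l.length, 0 ≤ h (X i) := by
  intro i hi
  rw [hX i hi, zero_add]
  exact hl.1 _ _ (List.take_append_drop i l).symm

lemma EE_of_SP {h : Site d →+ ℤ} {n : ℕ} {X : ℕ → Site d} {l : List (Dir d)} (hl : l ∈ SP h n)
    (hX : X ∈ cyl 0 l) : X ∈ EE h n := by
  refine ⟨l.length, ?_, cyl_pos' hX hl⟩
  have h1 := cyl_pos hX (a := l) (b := []) (by simp)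
  rw [h1, zero_add]
  exact hl.2.2

lemma measurableSet_EE (h : Site d →+ ℤ) (n : ℕ) : MeasurableSet (EE h n) := by
  have : EE h n = ⋃ m : ℕ, {X : ℕ → Site d | (n : ℤ) ≤ h (X m) ∧ ∀ i ≤ m, 0 ≤ h (X i)} := by
    ext X; simp [EE]
  rw [this]
  refine MeasurableSet.iUnion fun m => measurableSet_local m _ fun X Y hXY hX => ?_
  refine ⟨by rw [← hXY m le_rfl]; exact hX.1, fun i hi => by rw [← hXY i hi]; exact hX.2 i hi⟩

lemma EE_anti (h : Site d →+ ℤ) : Antitone (EE h) := by
  rintro a b hab X ⟨m, h1, h2⟩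
  have : (a : ℤ) ≤ b := by exact_mod_cast hab
  exact ⟨m, this.trans h1, h2⟩

lemma quenched_EE (h : Site d →+ ℤ) (n : ℕ) (ω : Env d) : quenched ω 0 (EE h n) = GG h n ω := by
  have h1 : quenched ω 0 (⋃ l : SP h n, cyl 0 (l : List (Dir d))) = GG h n ω := by
    rw [measure_iUnion]
    · simp only [quenched_cyl]
      rfl
    · intro a b hab
      exact cyl_disjoint (SP_free h n) a.2 b.2 (fun hh => hab (Subtype.ext hh))
    · intro a
      exact measurableSet_cyl _ _
  rw [← h1]
  refine le_antisymm ?_ (measure_mono ?_)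
  · calc quenched ω 0 (EE h n)
        ≤ quenched ω 0 ((⋃ l : SP h n, cyl 0 (l : List (Dir d))) ∪ (Good 0)ᶜ) := by
          refine measure_mono fun X hX => ?_
          by_cases hg : X ∈ Good 0
          · left
            obtain ⟨l, hl, hXl⟩ := exists_SP hg hX
            exact Set.mem_iUnion.2 ⟨⟨l, hl⟩, hXl⟩
          · exact Or.inr hg
      _ ≤ _ + quenched ω 0 (Good 0)ᶜ := measure_union_le _ _
      _ = _ := by rw [quenched_good, add_zero]
  · refine Set.iUnion_subset fun l X hX => EE_of_SP l.2 hX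

lemma GG_le_one (h : Site d →+ ℤ) (n : ℕ) (ω : Env d) : GG h n ω ≤ 1 := by
  rw [← quenched_EE]
  exact prob_le_one

lemma upI_le_GG (h : Site d →+ ℤ) (n : ℕ) (ω : Env d) : quenched ω 0 (UpI h) ≤ GG h n ω := by
  rw [← quenched_EE]
  calc quenched ω 0 (UpI h) ≤ quenched ω 0 (EE h n ∪ (Good 0)ᶜ) := by
        refine measure_mono fun X hX => ?_
        by_cases hg : X ∈ Good 0
        · left
          obtain ⟨m, hm⟩ := hX.2 n
          refine ⟨m, hm, fun i _ => ?_⟩
          have := hX.1 i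
          rwa [good_zero hg, map_zero] at this
        · exact Or.inr hg
    _ ≤ _ + quenched ω 0 (Good 0)ᶜ := measure_union_le _ _
    _ = _ := by rw [quenched_good, add_zero]

lemma le_upI (h : Site d →+ ℤ) (ω : Env d) {x : ℝ≥0∞} (hx : ∀ n, x ≤ GG h n ω) :
    x ≤ quenched ω 0 (UpI h) := by
  have h1 : quenched ω 0 (⋂ n, EE h n) = ⨅ n, quenched ω 0 (EE h n) :=
    (EE_anti h).measure_iInter (fun n => (measurableSet_EE h n).nullMeasurableSet)
      ⟨0, measure_ne_top _ _⟩
  have h2 : x ≤ quenched ω 0 (⋂ n, EE h n) := by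
    rw [h1]
    exact le_iInf fun n => by rw [quenched_EE]; exact hx n
  refine h2.trans ?_
  calc quenched ω 0 (⋂ n, EE h n) ≤ quenched ω 0 (UpI h ∪ (Good 0)ᶜ) := by
        refine measure_mono fun X hX => ?_
        by_cases hg : X ∈ Good 0
        · left
          rw [Set.mem_iInter] at hX
          refine ⟨fun i => ?_, fun K => ?_⟩
          · rw [good_zero hg, map_zero]
            obtain ⟨M, hM⟩ : ∃ M : ℕ, ∀ j ≤ i, h (X j) < M := by
              refine ⟨((Finset.range (i + 1)).sup (fun j => (h (X j)).natAbs)) + 1,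
                fun j hj => ?_⟩
              have : (h (X j)).natAbs ≤ (Finset.range (i + 1)).sup (fun j => (h (X j)).natAbs) :=
                Finset.le_sup (f := fun j => (h (X j)).natAbs) (by
                  rw [Finset.mem_range]; omega)
              push_cast
              omega
            obtain ⟨m, hm1, hm2⟩ := hX M
            refine hm2 i ?_
            by_contra hlt
            have := hM m (by omega)
            omega
          · obtain ⟨m, hm1, _⟩ := hX K.toNat
            exact ⟨m, (Int.self_le_toNat K).trans hm1⟩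
        · exact Or.inr hg
    _ ≤ _ + quenched ω 0 (Good 0)ᶜ := measure_union_le _ _
    _ = _ := by rw [quenched_good, add_zero]

lemma sum_le_upI (h : Site d →+ ℤ) (n : ℕ) (ω : Env d) :
    ∑' l : SP h n, qw ω 0 l * quenched ω (dsp (l : List (Dir d))) (UpI h) ≤
      quenched ω 0 (UpI h) := by
  have h1 : quenched ω 0 (⋃ l : SP h n, cyl 0 (l : List (Dir d)) ∩
      tl (l : List (Dir d)).length ⁻¹' (UpI h)) =
      ∑' l : SP h n, qw ω 0 l * quenched ω (dsp (l : List (Dir d))) (UpI h) := by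
    rw [measure_iUnion]
    · refine tsum_congr fun l => ?_
      rw [quenched_markov ω 0 l (measurableSet_upI h), zero_add]
    · intro a b hab
      exact (cyl_disjoint (SP_free h n) a.2 b.2 (fun hh => hab (Subtype.ext hh))).mono
        Set.inter_subset_left Set.inter_subset_left
    · intro a
      exact (measurableSet_cyl _ _).inter (measurable_tl _ (measurableSet_upI h))
  rw [← h1]
  calc quenched ω 0 (⋃ l : SP h n, cyl 0 (l : List (Dir d)) ∩
      tl (l : List (Dir d)).length ⁻¹' (UpI h)) ≤ quenched ω 0 (UpI h ∪ (Good 0)ᶜ) := by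
        refine measure_mono fun X hX => ?_
        by_cases hg : X ∈ Good 0
        · left
          obtain ⟨⟨l, hl⟩, hXl, hXu⟩ := Set.mem_iUnion.1 hX
          simp only at hXl hXu
          refine ⟨fun i => ?_, fun K => ?_⟩
          · rw [good_zero hg, map_zero]
            rcases Nat.le_total i l.length with hi | hi
            · exact cyl_pos' hXl hl i hi
            · have h2 := hXu.1 (i - l.length)
              simp only [tl, zero_add] at h2
              rw [Nat.sub_add_cancel hi] at h2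
              have h3 := cyl_pos' hXl hl l.length le_rfl
              omega
          · obtain ⟨m, hm⟩ := hXu.2 K
            exact ⟨m + l.length, hm⟩
        · exact Or.inr hg
    _ ≤ _ + quenched ω 0 (Good 0)ᶜ := measure_union_le _ _
    _ = _ := by rw [quenched_good, add_zero]

lemma GG_succ (h : Site d →+ ℤ) {u : Dir d} (hu : 0 < h (vec u)) (n : ℕ) {ω : Env d} {k : ℝ≥0∞}
    (hk1 : k ≤ 1) (hk : ∀ x, k ≤ ENNReal.ofReal ((ω x).1 u)) : k * GG h n ω ≤ GG h (n + 1) ω := by
  classical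
  have hmem : ∀ l : SP h n,
      (if h (dsp (l : List (Dir d))) = n then (l : List (Dir d)) ++ [u] else l) ∈ SP h (n + 1) := by
    rintro ⟨l, h1, h2, h3⟩
    simp only
    split_ifs with hl
    · refine ⟨fun a b hab => ?_, fun a b hab hb => ?_, ?_⟩
      · rcases List.append_eq_append_iff.1 hab with ⟨c, rfl, hc⟩ | ⟨c, hc, rfl⟩
        · have hc' : c = [] ∨ c = [u] := by
            cases c with
            | nil => exact Or.inl rfl
            | cons v c =>
              right
              simp only [List.cons_append, List.cons.injEq] at hc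
              obtain ⟨rfl, hc⟩ := hc
              rw [(List.append_eq_nil_iff.1 hc.symm).1]
          rcases hc' with rfl | rfl
          · rw [List.append_nil, hl]; positivity
          · rw [dsp_append, map_add, hl, dsp_cons, dsp_nil, add_zero]
            have : (0 : ℤ) ≤ n := by positivity
            omega
        · exact h1 a c hc
      · rcases List.append_eq_append_iff.1 hab with ⟨c, rfl, hc⟩ | ⟨c, hc, rfl⟩
        · have hc' : c = [] := by
            cases c with
            | nil => rfl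
            | cons v c =>
              simp only [List.cons_append, List.cons.injEq] at hc
              exact absurd (List.append_eq_nil_iff.1 hc.2.symm).2 hb
          rw [hc', List.append_nil, hl]
          push_cast
          omega
        · by_cases hc0 : c = []
          · rw [hc0, List.append_nil] at hc
            rw [← hc, hl]
            push_cast
            omega
          · have := h2 a c hc hc0
            push_cast
            omega
      · rw [dsp_append, map_add, hl, dsp_cons, dsp_nil, add_zero]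
        push_cast
        omega
    · refine ⟨h1, fun a b hab hb => ?_, ?_⟩
      · have := h2 a b hab hb
        push_cast
        omega
      · push_cast
        omega
  let φ : SP h n → SP h (n + 1) := fun l => ⟨_, hmem l⟩
  have hφ : Function.Injective φ := by
    rintro ⟨a, ha⟩ ⟨b, hb⟩ hab
    have hab' : (if h (dsp a) = n then a ++ [u] else a) =
        (if h (dsp b) = n then b ++ [u] else b) := congrArg Subtype.val hab
    apply Subtype.ext
    simp only
    split_ifs at hab' with h1 h2 h2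
    · exact List.append_cancel_right hab'
    · exfalso
      have := SP_free h n a ha [u] (by rw [hab']; exact hb)
      simp at this
    · exfalso
      have := SP_free h n b hb [u] (by rw [← hab']; exact ha)
      simp at this
    · exact hab'
  calc k * GG h n ω = ∑' l : SP h n, k * qw ω 0 l := by rw [GG, ENNReal.tsum_mul_left]
    _ ≤ ∑' l : SP h n, qw ω 0 (φ l : List (Dir d)) := by
        refine ENNReal.tsum_le_tsum fun l => ?_
        change _ ≤ qw ω 0 (if h (dsp (l : List (Dir d))) = n then (l : List (Dir d)) ++ [u] else l)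
        split_ifs with hl
        · rw [qw_append, mul_comm k]
          gcongr
          rw [qw_cons, qw_nil, mul_one]
          exact hk _
        · calc k * qw ω 0 l ≤ 1 * qw ω 0 l := by gcongr
            _ = _ := one_mul _
    _ ≤ GG h (n + 1) ω :=
        ENNReal.tsum_comp_le_tsum_of_injective hφ (fun l : SP h (n + 1) => qw ω 0 l)

/-- `n` is the first index for which the total weight is at most `x`. -/
def AA (h : Site d →+ ℤ) (x : ℝ≥0∞) (n : ℕ) : Set (Env d) :=
  {ω | GG h n ω ≤ x ∧ ∀ m < n, x < GG h m ω}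

lemma measurableSet_AA (h : Site d →+ ℤ) (x : ℝ≥0∞) (n : ℕ) : MeasurableSet (AA h x n) := by
  have : AA h x n = {ω | GG h n ω ≤ x} ∩ ⋂ m : ℕ, ⋂ _ : m < n, {ω | x < GG h m ω} := by
    ext ω; simp [AA]
  rw [this]
  refine (measurableSet_le (measurable_GG h n) measurable_const).inter
    (MeasurableSet.iInter fun m => MeasurableSet.iInter fun _ =>
      measurableSet_lt measurable_const (measurable_GG h m))

lemma AA_loc (h : Site d →+ ℤ) (x : ℝ≥0∞) (n : ℕ) {ω ω' : Env d}
    (hω : ∀ y, h y < n → ω y = ω' y) (hA : ω ∈ AA h x n) : ω' ∈ AA h x n := by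
  refine ⟨?_, fun m hm => ?_⟩
  · rw [← GG_loc h le_rfl hω]; exact hA.1
  · rw [← GG_loc h hm.le hω]; exact hA.2 m hm

lemma AA_disjoint (h : Site d →+ ℤ) (x : ℝ≥0∞) {m n : ℕ} (hmn : m ≠ n) :
    Disjoint (AA h x m) (AA h x n) := by
  rw [Set.disjoint_left]
  intro ω h1 h2
  rcases Nat.lt_or_gt_of_ne hmn with hlt | hlt
  · exact absurd h1.1 (not_le.2 (h2.2 m hlt))
  · exact absurd h2.1 (not_le.2 (h1.2 n hlt))

lemma exists_AA (h : Site d →+ ℤ) {x : ℝ≥0∞} {ω : Env d} (hx : quenched ω 0 (UpI h) < x) :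
    ∃ n, ω ∈ AA h x n := by
  classical
  have hex : ∃ n, GG h n ω ≤ x := by
    by_contra hcon
    push Not at hcon
    exact absurd (le_upI h ω fun n => (hcon n).le) (not_le.2 hx)
  exact ⟨Nat.find hex, Nat.find_spec hex, fun m hm => not_le.1 (Nat.find_min hex hm)⟩

/-- The environments for which the probability of `UpI` from `z` is at most `y`. -/
def LW (h : Site d →+ ℤ) (z : Site d) (y : ℝ≥0∞) : Set (Env d) :=
  {ω | quenched ω z (UpI h) ≤ y}

lemma mem_LW {h : Site d →+ ℤ} {z : Site d} {y : ℝ≥0∞} {ω : Env d} :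
    ω ∈ LW h z y ↔ quenched ω z (UpI h) ≤ y := Iff.rfl

lemma measurableSet_LW (h : Site d →+ ℤ) (z : Site d) (y : ℝ≥0∞) :
    MeasurableSet (LW h z y) :=
  measurableSet_le (measurable_quenched_apply z (measurableSet_upI h)) measurable_const

lemma LW_shift (h : Site d →+ ℤ) (z : Site d) (y : ℝ≥0∞) : shift z ⁻¹' (LW h 0 y) = LW h z y := by
  ext ω
  rw [Set.mem_preimage, mem_LW, mem_LW, quenched_shift ω 0 z (measurableSet_upI h), zero_add]
  have : tr (-z) ⁻¹' (UpI h) = UpI h := by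
    ext X
    exact tinv_upI h (-z) X
  rw [this]

lemma LW_loc (h : Site d →+ ℤ) (z : Site d) (y : ℝ≥0∞) {ω ω' : Env d}
    (hω : ∀ y, h z ≤ h y → ω y = ω' y) : ω ∈ LW h z y ↔ ω' ∈ LW h z y := by
  rw [mem_LW, mem_LW, quenched_local h z hω (measurableSet_upI h) Set.inter_subset_left]

section prob

variable (μ : Measure (Row d)) [IsProbabilityMeasure μ]

lemma measure_LW (h : Site d →+ ℤ) (z : Site d) (y : ℝ≥0∞) :
    envLaw μ (LW h z y) = envLaw μ (LW h 0 y) := by
  rw [← LW_shift]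
  exact (measurePreserving_shift μ z).measure_preimage (measurableSet_LW h 0 y).nullMeasurableSet

lemma lintegral_LW (h : Site d →+ ℤ) (x : Site d) (y : ℝ≥0∞) (F : Env d → ℝ≥0∞)
    (hF : Measurable F) (hloc : ∀ ω ω' : Env d, (∀ y, h y < h x → ω y = ω' y) → F ω = F ω') :
    ∫⁻ ω, F ω * (LW h x y).indicator 1 ω ∂(envLaw μ) =
      (∫⁻ ω, F ω ∂(envLaw μ)) * envLaw μ (LW h 0 y) := by
  have : Nonempty (Row d) := nonempty_of_isProbabilityMeasure μ
  have hdisj : Disjoint {y : Site d | h y < h x} {y : Site d | h x ≤ h y} := by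
    rw [Set.disjoint_left]
    intro y (h1 : h y < h x) (h2 : h x ≤ h y)
    exact absurd h1 (not_lt.2 h2)
  have h1 : Measurable[freshAlg {y : Site d | h y < h x}] F :=
    freshAlg_measurable hF fun ω ω' hω => hloc ω ω' hω
  have h2 : Measurable[freshAlg {y : Site d | h x ≤ h y}]
      (fun ω : Env d => (LW h x y).indicator (1 : Env d → ℝ≥0∞) ω) := by
    refine freshAlg_measurable ((measurable_one).indicator (measurableSet_LW h x y))
      fun ω ω' hω => ?_
    have h3 := LW_loc h x y hω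
    by_cases hω1 : ω ∈ LW h x y
    · rw [Set.indicator_of_mem hω1, Set.indicator_of_mem (h3.1 hω1)]
      rfl
    · rw [Set.indicator_of_notMem hω1, Set.indicator_of_notMem (fun hh => hω1 (h3.2 hh))]
  have h3 := ProbabilityTheory.lintegral_mul_eq_lintegral_mul_lintegral_of_independent_measurableSpace
    (freshAlg_le _) (freshAlg_le _) (freshAlg_indep μ hdisj) h1 h2
  rw [← measure_LW μ h x y, ← lintegral_indicator_one (measurableSet_LW h x y)]
  exact h3

open Classical in
/-- Pointwise bound. -/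
lemma pointwise (h : Site d →+ ℤ) (n : ℕ) {k x y : ℝ≥0∞} (hy0 : y ≠ 0) (hyt : y ≠ ∞) {ω : Env d}
    (hkx : k * x ≤ GG h n ω) (hkx0 : k * x ≠ 0) (hg : quenched ω 0 (UpI h) ≤ k * x * y / 2) :
    1 ≤ 2 * ∑' l : SP h n, (GG h n ω)⁻¹ * qw ω 0 l *
      (LW h (dsp (l : List (Dir d))) y).indicator 1 ω := by
  have hG0 : GG h n ω ≠ 0 := fun h0 => hkx0 (le_antisymm (h0 ▸ hkx) zero_le)
  have hGt : GG h n ω ≠ ∞ := ((GG_le_one h n ω).trans_lt ENNReal.one_lt_top).ne
  set a : ℝ≥0∞ := ∑' l : SP h n, qw ω 0 l *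
    (LW h (dsp (l : List (Dir d))) y).indicator 1 ω with ha
  set b : ℝ≥0∞ := ∑' l : SP h n, qw ω 0 l *
    (LW h (dsp (l : List (Dir d))) y)ᶜ.indicator 1 ω with hb
  have hab : GG h n ω = a + b := by
    rw [ha, hb, ← ENNReal.tsum_add, GG]
    refine tsum_congr fun l => ?_
    rw [← mul_add, Set.indicator_self_add_compl_apply, Pi.one_apply, mul_one]
  have hb1 : b * y ≤ GG h n ω / 2 * y := by
    calc b * y ≤ ∑' l : SP h n, qw ω 0 l * quenched ω (dsp (l : List (Dir d))) (UpI h) := by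
          rw [hb, ← ENNReal.tsum_mul_right]
          refine ENNReal.tsum_le_tsum fun l => ?_
          rw [mul_assoc]
          gcongr
          by_cases hl : ω ∈ LW h (dsp (l : List (Dir d))) y
          · rw [Set.indicator_of_notMem (by simpa using hl), zero_mul]; exact zero_le
          · rw [Set.indicator_of_mem (by simpa using hl), Pi.one_apply, one_mul]
            rw [mem_LW] at hl
            exact (not_le.1 hl).le
      _ ≤ quenched ω 0 (UpI h) := sum_le_upI h n ω
      _ ≤ k * x * y / 2 := hg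
      _ ≤ GG h n ω * y / 2 := by gcongr
      _ = GG h n ω / 2 * y := by rw [div_eq_mul_inv, div_eq_mul_inv]; ring
  have hb2 : b ≤ GG h n ω / 2 := (ENNReal.mul_le_mul_iff_left hy0 hyt).1 hb1
  have ha2 : GG h n ω / 2 ≤ a := by
    have h1 : GG h n ω / 2 + GG h n ω / 2 ≤ a + GG h n ω / 2 := by
      rw [ENNReal.add_halves]
      calc GG h n ω = a + b := hab
        _ ≤ a + GG h n ω / 2 := by gcongr
    exact (ENNReal.add_le_add_iff_right (ENNReal.div_ne_top hGt (by simp))).1 h1
  have e : ∑' l : SP h n, (GG h n ω)⁻¹ * qw ω 0 l *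
      (LW h (dsp (l : List (Dir d))) y).indicator 1 ω = (GG h n ω)⁻¹ * a := by
    rw [ha, ← ENNReal.tsum_mul_left]
    exact tsum_congr fun l => mul_assoc _ _ _
  rw [e]
  calc (1 : ℝ≥0∞) = (GG h n ω)⁻¹ * GG h n ω := (ENNReal.inv_mul_cancel hG0 hGt).symm
    _ = (GG h n ω)⁻¹ * (GG h n ω / 2 + GG h n ω / 2) := by rw [ENNReal.add_halves]
    _ ≤ (GG h n ω)⁻¹ * (a + a) := by gcongr
    _ = 2 * ((GG h n ω)⁻¹ * a) := by ring

lemma level_bound (h : Site d →+ ℤ) (n : ℕ) {k x y : ℝ≥0∞} (hy0 : y ≠ 0) (hyt : y ≠ ∞)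
    (hkx0 : k * x ≠ 0)
    (hkx : ∀ᵐ ω ∂(envLaw μ), ω ∈ AA h x n → k * x ≤ GG h n ω) :
    envLaw μ (LW h 0 (k * x * y / 2) ∩ AA h x n) ≤
      2 * envLaw μ (LW h 0 y) * envLaw μ (AA h x n) := by
  classical
  have hmB : MeasurableSet (LW h 0 (k * x * y / 2) ∩ AA h x n) :=
    (measurableSet_LW h 0 _).inter (measurableSet_AA h x n)
  set F : SP h n → Env d → ℝ≥0∞ := fun l ω =>
    (AA h x n).indicator 1 ω * ((GG h n ω)⁻¹ * qw ω 0 l) with hF
  have hFm : ∀ l, Measurable (F l) := fun l =>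
    (measurable_one.indicator (measurableSet_AA h x n)).mul
      ((measurable_GG h n).inv.mul (measurable_qw 0 _))
  have hFloc : ∀ l : SP h n, ∀ ω ω' : Env d,
      (∀ y, h y < h (dsp (l : List (Dir d))) → ω y = ω' y) → F l ω = F l ω' := by
    intro l ω ω' hω
    have hω' : ∀ y, h y < n → ω y = ω' y := fun y hy => hω y (lt_of_lt_of_le hy l.2.2.2)
    simp only [hF]
    rw [GG_loc h le_rfl hω', qw_loc l.2 hω']
    congr 1
    by_cases hA : ω ∈ AA h x n
    · rw [Set.indicator_of_mem hA, Set.indicator_of_mem (AA_loc h x n hω' hA)]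
      rfl
    · rw [Set.indicator_of_notMem hA, Set.indicator_of_notMem
        (fun hh => hA (AA_loc h x n (fun y hy => (hω' y hy).symm) hh))]
  have hmeas : ∀ l : SP h n, Measurable (fun ω => F l ω *
      (LW h (dsp (l : List (Dir d))) y).indicator 1 ω) := fun l =>
    (hFm l).mul (measurable_one.indicator (measurableSet_LW h _ y))
  calc envLaw μ (LW h 0 (k * x * y / 2) ∩ AA h x n)
      = ∫⁻ ω, (LW h 0 (k * x * y / 2) ∩ AA h x n).indicator 1 ω
          ∂(envLaw μ) := (lintegral_indicator_one hmB).symm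
    _ ≤ ∫⁻ ω, 2 * ∑' l : SP h n, F l ω *
          (LW h (dsp (l : List (Dir d))) y).indicator 1 ω ∂(envLaw μ) := by
        refine lintegral_mono_ae ?_
        filter_upwards [hkx] with ω hω
        by_cases hB : ω ∈ LW h 0 (k * x * y / 2) ∩ AA h x n
        · rw [Set.indicator_of_mem hB]
          have h1 := pointwise h n hy0 hyt (hω hB.2) hkx0 hB.1
          refine h1.trans (le_of_eq ?_)
          congr 1
          refine tsum_congr fun l => ?_
          simp only [hF]
          rw [Set.indicator_of_mem hB.2, Pi.one_apply, one_mul]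
        · rw [Set.indicator_of_notMem hB]
          exact zero_le
    _ = 2 * ∑' l : SP h n, ∫⁻ ω, F l ω *
          (LW h (dsp (l : List (Dir d))) y).indicator 1 ω ∂(envLaw μ) := by
        rw [lintegral_const_mul _ (Measurable.tsum hmeas),
          lintegral_tsum fun l => (hmeas l).aemeasurable]
    _ = 2 * ∑' l : SP h n, (∫⁻ ω, F l ω ∂(envLaw μ)) * envLaw μ (LW h 0 y) := by
        congr 1
        exact tsum_congr fun l => lintegral_LW μ h _ y (F l) (hFm l) (hFloc l)
    _ = 2 * envLaw μ (LW h 0 y) * ∫⁻ ω, ∑' l : SP h n, F l ω ∂(envLaw μ) := by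
        rw [ENNReal.tsum_mul_right, lintegral_tsum fun l => (hFm l).aemeasurable]
        ring
    _ ≤ 2 * envLaw μ (LW h 0 y) * ∫⁻ ω, (AA h x n).indicator 1 ω ∂(envLaw μ) := by
        gcongr with ω
        simp only [hF]
        rw [ENNReal.tsum_mul_left, ENNReal.tsum_mul_left]
        calc (AA h x n).indicator 1 ω * ((GG h n ω)⁻¹ * GG h n ω) ≤
              (AA h x n).indicator 1 ω * 1 := by
              gcongr
              exact ENNReal.inv_mul_le_one _
          _ = _ := mul_one _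
    _ = _ := by rw [lintegral_indicator_one (measurableSet_AA h x n)]

lemma claim (h : Site d →+ ℤ) {k x y : ℝ≥0∞} (hk0 : k ≠ 0) (hk1 : k ≤ 1) (hx0 : x ≠ 0)
    (hx1 : x < 1) (hy0 : y ≠ 0) (hy1 : y ≤ 1) {u : Dir d} (hu : 0 < h (vec u))
    (hell : ∀ᵐ ω ∂(envLaw μ), ∀ x, k ≤ ENNReal.ofReal ((ω x).1 u)) :
    envLaw μ (LW h 0 (k * x * y / 2)) ≤ 2 * envLaw μ (LW h 0 y) * envLaw μ (LW h 0 x) := by
  have hlt : k * x * y / 2 < x := by
    calc k * x * y / 2 ≤ 1 * x * 1 / 2 := by gcongr
      _ = x / 2 := by rw [one_mul, mul_one]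
      _ < x := ENNReal.half_lt_self hx0 (hx1.trans ENNReal.one_lt_top).ne
  have hsub : LW h 0 (k * x * y / 2) ⊆ ⋃ n, (LW h 0 (k * x * y / 2) ∩ AA h x n) := by
    intro ω hω
    obtain ⟨n, hn⟩ := exists_AA h (lt_of_le_of_lt (mem_LW.1 hω) hlt)
    exact Set.mem_iUnion.2 ⟨n, hω, hn⟩
  have hkx : ∀ n, ∀ᵐ ω ∂(envLaw μ), ω ∈ AA h x n → k * x ≤ GG h n ω := by
    intro n
    filter_upwards [hell] with ω hω hA
    cases n with
    | zero =>
      rw [GG_zero]
      calc k * x ≤ 1 * 1 := by gcongr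
        _ = 1 := one_mul 1
    | succ m =>
      calc k * x ≤ k * GG h m ω := by
            gcongr
            exact (hA.2 m (Nat.lt_succ_self m)).le
        _ ≤ GG h (m + 1) ω := GG_succ h hu m hk1 hω
  calc envLaw μ (LW h 0 (k * x * y / 2))
      ≤ envLaw μ (⋃ n, (LW h 0 (k * x * y / 2) ∩ AA h x n)) := measure_mono hsub
    _ ≤ ∑' n, envLaw μ (LW h 0 (k * x * y / 2) ∩ AA h x n) := measure_iUnion_le _
    _ ≤ ∑' n, 2 * envLaw μ (LW h 0 y) * envLaw μ (AA h x n) :=
        ENNReal.tsum_le_tsum fun n => level_bound μ h n hy0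
          (hy1.trans_lt ENNReal.one_lt_top).ne (mul_ne_zero hk0 hx0) (hkx n)
    _ = 2 * envLaw μ (LW h 0 y) * envLaw μ (⋃ n, AA h x n) := by
        rw [ENNReal.tsum_mul_left, measure_iUnion (fun m n hmn => AA_disjoint h x hmn)
          (fun n => measurableSet_AA h x n)]
    _ ≤ 2 * envLaw μ (LW h 0 y) * envLaw μ (LW h 0 x) := by
        gcongr
        exact Set.iUnion_subset fun n ω hω => (upI_le_GG h n ω).trans hω.1

lemma exists_small (h : Site d →+ ℤ) (hpos : ∀ᵐ ω ∂(envLaw μ), quenched ω 0 (UpI h) ≠ 0) :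
    ∃ x : ℝ≥0∞, x ≠ 0 ∧ x < 1 ∧ envLaw μ (LW h 0 x) ≤ 4⁻¹ := by
  have hanti : Antitone (fun n : ℕ => LW h 0 ((n + 2 : ℕ) : ℝ≥0∞)⁻¹) := by
    intro a b hab ω hω
    refine le_trans (mem_LW.1 hω) ?_
    rw [ENNReal.inv_le_inv]
    exact_mod_cast Nat.add_le_add_right hab 2
  have ht := tendsto_measure_iInter_atTop (μ := envLaw μ)
    (fun n : ℕ => (measurableSet_LW h 0 ((n + 2 : ℕ) : ℝ≥0∞)⁻¹).nullMeasurableSet) hanti
    ⟨0, measure_ne_top _ _⟩
  have h0 : envLaw μ (⋂ n : ℕ, LW h 0 ((n + 2 : ℕ) : ℝ≥0∞)⁻¹) = 0 := by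
    refine measure_mono_null (fun ω hω => ?_) (ae_iff.1 hpos)
    rw [Set.mem_iInter] at hω
    simp only [Set.mem_ofPred_eq, not_not]
    by_contra hne
    obtain ⟨n, hn⟩ := ENNReal.exists_inv_nat_lt hne
    have h1 := mem_LW.1 (hω n)
    have h2 : (((n + 2 : ℕ) : ℝ≥0∞))⁻¹ ≤ (n : ℝ≥0∞)⁻¹ := by
      rw [ENNReal.inv_le_inv]
      exact_mod_cast Nat.le_add_right n 2
    exact absurd (h1.trans h2) (not_le.2 hn)
  rw [h0] at ht
  have hev := ht.eventually_lt_const (show (0 : ℝ≥0∞) < 4⁻¹ by simp)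
  obtain ⟨n, hn⟩ := hev.exists
  refine ⟨((n + 2 : ℕ) : ℝ≥0∞)⁻¹, ?_, ?_, hn.le⟩
  · exact ENNReal.inv_ne_zero.2 (ENNReal.natCast_ne_top _)
  · rw [ENNReal.inv_lt_one]
    exact_mod_cast (by omega : 1 < n + 2)

end prob

end TailAux

section final

variable {d : ℕ}

open TailAux

theorem tail (μ : Measure (Row d)) [IsProbabilityMeasure μ] (hμ : UEll μ) {h : Site d →+ ℤ} (hsurj : Function.Surjective h)
    (hpos : ∀ᵐ ω ∂(envLaw μ), quenched ω 0 (UpI h) ≠ 0) :
    ∃ r : ℝ≥0∞, r ≠ 0 ∧ r ≤ 1 ∧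
      ∀ i : ℕ, envLaw μ {ω | quenched ω 0 (UpI h) ≤ r ^ i} ≤ (1 / 2) ^ i := by
  obtain ⟨κ, hκ0, hκ⟩ := hμ
  obtain ⟨u, hu⟩ := exists_pos_step hsurj
  obtain ⟨x, hx0, hx1, hx⟩ := exists_small μ h hpos
  set k : ℝ≥0∞ := min (ENNReal.ofReal κ) 1 with hk
  have hk0 : k ≠ 0 := by
    have : 0 < k := lt_min (ENNReal.ofReal_pos.2 hκ0) one_pos
    exact this.ne'
  have hk1 : k ≤ 1 := min_le_right _ _
  have hell : ∀ᵐ ω ∂(envLaw μ), ∀ x, k ≤ ENNReal.ofReal ((ω x).1 u) := by
    rw [ae_all_iff]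
    intro x
    have h1 := (measurePreserving_eval_infinitePi (fun _ : Site d => μ) x).quasiMeasurePreserving
    have h2 : ∀ᵐ ω ∂(envLaw μ), ∀ u : Dir d, κ ≤ (ω x).1 u := h1.ae hκ
    filter_upwards [h2] with ω hω
    exact (min_le_left _ _).trans (ENNReal.ofReal_le_ofReal (hω u))
  have hkx1 : k * x / 2 ≤ 1 := by
    calc k * x / 2 ≤ 1 * 1 / 2 := by gcongr
      _ ≤ 1 := by rw [one_mul]; exact ENNReal.half_le_self
  have hkx0 : k * x / 2 ≠ 0 := (ENNReal.div_pos (mul_ne_zero hk0 hx0) (by simp)).ne'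
  refine ⟨k * x / 2, hkx0, hkx1, fun i => ?_⟩
  induction i with
  | zero => rw [pow_zero, pow_zero]; exact prob_le_one
  | succ i ih =>
    have e : (k * x / 2) ^ (i + 1) = k * x * (k * x / 2) ^ i / 2 := by
      rw [pow_succ, div_eq_mul_inv, div_eq_mul_inv]; ring
    have h1 := claim μ h hk0 hk1 hx0 hx1 (y := (k * x / 2) ^ i) (pow_ne_zero _ hkx0)
      (pow_le_one₀ zero_le hkx1) hu hell
    rw [← e] at h1
    calc envLaw μ {ω | quenched ω 0 (UpI h) ≤ (k * x / 2) ^ (i + 1)}
        ≤ 2 * envLaw μ (LW h 0 ((k * x / 2) ^ i)) * envLaw μ (LW h 0 x) := h1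
      _ ≤ 2 * (1 / 2) ^ i * 4⁻¹ := by
          gcongr
          exact ih
      _ = (1 / 2) ^ (i + 1) := by
          have h4 : (4 : ℝ≥0∞)⁻¹ = 2⁻¹ * 2⁻¹ := by
            rw [← ENNReal.mul_inv (by simp) (by simp)]
            norm_num
          have h2 : (2 : ℝ≥0∞) * 2⁻¹ = 1 := ENNReal.mul_inv_cancel (by simp) (by simp)
          rw [h4, pow_succ, one_div]
          calc 2 * (2⁻¹ : ℝ≥0∞) ^ i * (2⁻¹ * 2⁻¹) = (2 * 2⁻¹) * ((2⁻¹) ^ i * 2⁻¹) := by ring
            _ = _ := by rw [h2, one_mul]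

end final

end Vale.Agent.P147.D3
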