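import Vale.Agent.P147.D3.Low
import Vale.Agent.P147.D3.Second3
import Vale.Agent.P147.D3.Tail
import Vale.Agent.P147.D3.Contra3
import Vale.Agent.P147.D3.Fin

/-! The one-sided theorem in dimension three, for uniformly elliptic laws. -/

open MeasureTheory Filter
open scoped ENNReal

namespace Vale.Agent.P147.D3

variable {d : ℕ} (μ : Measure (Row d)) [IsProbabilityMeasure μ]

/-- The one-sided theorem for integer functionals. -/
theorem one_sided3 (hd : 3 ≤ d) (hμ : UEll μ) {h : Site d →+ ℤ}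
    (hsurj : Function.Surjective h) (hl : Lin μ h) : annealed μ 0 (Esc (-h)) = 0 := by
  classical
  by_contra hpos
  have hμ' := hμ.elliptic
  obtain ⟨c₁, hc₁, L₁, s₁, hI₁⟩ := hl.weak
  obtain ⟨J₁, hJ₁⟩ := uu_ne_zero μ hμ' hsurj
  obtain ⟨q, hq, k₀, hlow⟩ := uu_low μ hc₁ hI₁ hJ₁
  have hthin := thin_up μ hl hq hlow
  have hposS := upS_ae_pos μ hμ' (neg_surj hsurj) hpos
  have hposI : ∀ᵐ ω ∂(envLaw μ), quenched ω 0 (UpI (-h)) ≠ 0 := by
    filter_upwards [hposS] with ω hω h0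
    exact hω (measure_mono_null (upS_subset_upI (-h)) h0)
  obtain ⟨r, hr0, hr1, htail⟩ := tail μ hμ (neg_surj hsurj) hposI
  obtain ⟨Λ, hΛ2, hΛ⟩ : ∃ Λ : ℕ, 2 ≤ Λ ∧ r⁻¹ ^ 2 < 2 * Λ := by
    obtain ⟨n, hn⟩ := ENNReal.exists_nat_gt (r := r⁻¹ ^ 2) (by
      simp [hr0])
    refine ⟨n + 2, by omega, hn.trans_le ?_⟩
    push_cast
    calc (n : ℝ≥0∞) ≤ 1 * (n + 2) := by rw [one_mul]; exact le_self_add
      _ ≤ 2 * (n + 2) := by gcongr; exact one_le_two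
  obtain ⟨y, hy, C₀, hC₀, hlow2⟩ := pairs_low μ hd hμ' hsurj hq hlow hthin hΛ2
  obtain ⟨M, C₃, hM, hC₃, hsm⟩ := second3 μ hμ' hsurj hq hlow rfl hthin hΛ2 hy hC₀ hlow2
  exact contra3 μ (measurable_quenched_apply 0 (measurableSet_upI (-h))) (by simp [hq])
    hC₃ hr0 hr1 htail (turning_sum_upI μ h) hΛ hC₀ hM hsm

end Vale.Agent.P147.D3
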