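import Vale.Agent.P147.D3.Main

open MeasureTheory

namespace Vale.Agent.P147.D3

theorem main2 {d : ℕ} (hd : 3 ≤ d) (μ : Measure (Row d)) [IsProbabilityMeasure μ]
    (hμ : Elliptic μ) :
    (4 ≤ d ∨ (∃ κ : ℝ, 0 < κ ∧ ∀ᵐ p ∂μ, ∀ u : Dir d, κ ≤ p.1 u) →
      (∀ v : Fin d → ℝ, annealed μ 0 (ThinEscape v) ≠ 0 → annealed μ 0 (Escape v) = 1) ∧
      (∀ w : Fin d → ℝ, w ≠ 0 → annealed μ 0 (Speed w) ≠ 0 → annealed μ 0 (Speed w) = 1) ∧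
      ((∃ v : Fin d → ℝ, annealed μ 0 (ThinEscape v) ≠ 0) ∨
        (∃ w : Fin d → ℝ, w ≠ 0 ∧ annealed μ 0 (Speed w) ≠ 0) →
        ∀ l : Fin d → ℝ, annealed μ 0 (Escape l) = 0 ∨ annealed μ 0 (Escape l) = 1)) ∧
    (∀ v : Fin d → ℝ, annealed μ 0 (ThinEscape v) = 0 ∨ annealed μ 0 (ThinEscape (-v)) = 0) ∧
    (∀ w₁ w₂ : Fin d → ℝ, w₁ ≠ 0 → w₂ ≠ 0 → w₁ ≠ w₂ →
      annealed μ 0 (Speed w₁) = 0 ∨ annealed μ 0 (Speed w₂) = 0) := by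
  have key : 4 ≤ d ∨ (∃ κ : ℝ, 0 < κ ∧ ∀ᵐ p ∂μ, ∀ u : Dir d, κ ≤ p.1 u) → ∀ h : Site d →+ ℤ,
      Function.Surjective h → Lin μ h → annealed μ 0 (Esc (-h)) = 0 := by
    rintro (hd4 | hu) h hsurj hl
    · exact one_sided μ hd4 hμ hsurj hl
    · exact one_sided3 μ hd hu hsurj hl
  refine ⟨fun hk => ?_, fun v => thin_tube μ hd hμ v,
    fun _ _ h1 h2 hne => one_velocity μ hd hμ h1 h2 hne⟩
  have hfin := final_of_one μ (key hk) hμ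
  refine ⟨fun v hv => (hfin.1 v hv).1, fun w hw hp => (hfin.2 w hw hp).1, ?_⟩
  rintro (⟨v, hv⟩ | ⟨w, hw, hp⟩)
  · exact (hfin.1 v hv).2
  · exact (hfin.2 w hw hp).2

end Vale.Agent.P147.D3
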