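import Vale.Agent.P147.D3.Base

/-! Pairs of paths in the same direction: algebra. -/

open MeasureTheory Filter
open scoped ENNReal

namespace Vale.Agent.P147.D3

variable {d : ℕ}

@[simp] lemma SM.a_one : (1 : SM d).a = [] := rfl

@[simp] lemma SM.b_one : (1 : SM d).b = [] := rfl

@[simp] lemma SM.a_mul (x y : SM d) : (x * y).a = x.a ++ y.a := by
  simp [SM.a]

@[simp] lemma SM.b_mul (x y : SM d) : (x * y).b = x.b ++ y.b := by
  simp [SM.b]

@[simp] lemma SM.disp_mul (x y : SM d) : (x * y).disp = x.disp + y.disp := by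
  simp only [SM.disp, SM.a_mul, SM.b_mul, dsp_append]
  abel

lemma SDj_one (z : Site d) : SDj z (1 : SM d) := by simp [SDj]

lemma SDj_mul {h : Site d →+ ℤ} {z : Site d} (hz : h z = 0) {j k : ℕ} {x y : SM d}
    (hx : x ∈ (sG h).G j) (hy : y ∈ (sG h).G k) :
    SDj z (x * y) ↔ SDj z x ∧ SDj (z + x.disp) y := by
  rw [mem_sG] at hx hy
  have e1 : exits 0 (x * y).a = exits 0 x.a ∪ exits (dsp x.a) y.a := by
    rw [SM.a_mul, exits_append, zero_add]
  have e2 : exits z (x * y).b = exits z x.b ∪ exits (z + dsp x.b) y.b := by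
    rw [SM.b_mul, exits_append]
  have hxa := hx.1.2.2
  have hxb := hx.2.2.2
  have c1 : Disjoint (exits 0 x.a) (exits (z + dsp x.b) y.b) := by
    rw [Finset.disjoint_left]
    intro w h1 h2
    have h3 := mem_exits_height hx.1 h1
    have h4 := mem_exits_height hy.2 h2
    simp only [map_add, map_zero] at h3 h4
    omega
  have c2 : Disjoint (exits (dsp x.a) y.a) (exits z x.b) := by
    rw [Finset.disjoint_left]
    intro w h1 h2
    have h3 := mem_exits_height hy.1 h1
    have h4 := mem_exits_height hx.2 h2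
    omega
  have e3 : Disjoint (exits (dsp x.a) y.a) (exits (z + dsp x.b) y.b) ↔
      SDj (z + x.disp) y := by
    rw [SDj]
    have e4 : dsp x.a = 0 + dsp x.a := by abel
    have e5 : z + dsp x.b = (z + x.disp) + dsp x.a := by rw [SM.disp]; abel
    rw [e5]
    conv_lhs => rw [e4]
    rw [exits_add 0 (dsp x.a), zero_add, exits_add (z + x.disp) (dsp x.a),
      Finset.disjoint_image (add_left_injective (dsp x.a))]
  rw [← e3, SDj, SDj, e1, e2, Finset.disjoint_union_left, Finset.disjoint_union_right,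
    Finset.disjoint_union_right]
  tauto

section

variable (μ : Measure (Row d)) [IsProbabilityMeasure μ]

lemma sG_mult (h : Site d →+ ℤ) : (sG h).Mult (WS μ) :=
  (upG_mult μ h).prod (upG_mult μ h)

lemma DS_zero (h : Site d →+ ℤ) (z : Site d) : DS μ h z 0 = 1 := by
  classical
  rw [DS, (sG h).G_zero]
  rw [tsum_singleton (1 : SM d) (fun x => WS μ x * (if SDj z x then 1 else 0))]
  simp [WS, SDj_one]

open Classical in
lemma DS_succ {h : Site d →+ ℤ} {z : Site d} (hz : h z = 0) {k : ℕ} (hk : 0 < k) :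
    DS μ h z k = ∑ j ∈ Finset.Icc 1 k, ∑' x : (sG h).I j,
      WS μ x * ((if SDj z (x : SM d) then 1 else 0) * DS μ h (z + (x : SM d).disp) (k - j)) := by
  rw [DS, Grading.tsum_mul_eq (sG_mult μ h) hk (fun x => if SDj z (x : SM d) then 1 else 0)]
  refine Finset.sum_congr rfl fun j _ => tsum_congr fun x => ?_
  congr 1
  rw [DS, ← ENNReal.tsum_mul_left]
  refine tsum_congr fun y => ?_
  have := SDj_mul hz x.2.1 y.2
  by_cases h1 : SDj z (x : SM d) <;> by_cases h2 : SDj (z + (x : SM d).disp) (y : SM d) <;>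
    simp [this, h1, h2]

open Classical in
lemma DS_eq (h : Site d →+ ℤ) (z : Site d) (k : ℕ) :
    DS μ h z k = ∑' p : Up h k × Up h k, wt μ p.1 * wt μ p.2 *
      (if Disjoint (exits 0 (p.1 : List (Dir d))) (exits z (p.2 : List (Dir d)))
        then 1 else 0) := by
  let e : (sG h).G k ≃ Up h k × Up h k :=
    { toFun := fun x => (⟨(x : SM d).a, (mem_sG.1 x.2).1⟩, ⟨(x : SM d).b, (mem_sG.1 x.2).2⟩)
      invFun := fun p => ⟨(FreeMonoid.ofList p.1.1, FreeMonoid.ofList p.2.1),
        mem_sG.2 ⟨p.1.2, p.2.2⟩⟩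
      left_inv := fun _ => rfl
      right_inv := fun _ => rfl }
  rw [DS, ← e.tsum_eq]
  refine tsum_congr fun x => ?_
  congr 1
  by_cases hx : SDj z (x : SM d)
  · rw [if_pos hx]
    exact (if_pos hx).symm
  · rw [if_neg hx]
    exact (if_neg hx).symm

end

end Vale.Agent.P147.D3
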