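import Vale.Agent.P147.D3.Base

/-! Second moments, averaged over the level. -/

set_option linter.all false

open MeasureTheory Filter
open scoped ENNReal

namespace Vale.Agent.P147.D3

variable {d : ℕ}

open SecSum

/-- Pairs of upward paths as elements of the graded product. -/
private def sa_equiv (h : Site d →+ ℤ) (k : ℕ) : (sG h).G k ≃ Up h k × Up h k where
  toFun x := (⟨(x : SM d).a, (mem_sG.1 x.2).1⟩, ⟨(x : SM d).b, (mem_sG.1 x.2).2⟩)
  invFun p := ⟨(FreeMonoid.ofList (p.1 : List (Dir d)), FreeMonoid.ofList (p.2 : List (Dir d))),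
    mem_sG.2 ⟨p.1.2, p.2.2⟩⟩
  left_inv _ := rfl
  right_inv _ := rfl

open Classical in
private lemma sa_DS_eq (μ : Measure (Row d)) (h : Site d →+ ℤ) (y : Site d) (k : ℕ) :
    DS μ h y k = ∑' q : DD h y k, wt μ q.1.1 * wt μ q.1.2 := by
  rw [← tsum_DD, DS, ← (sa_equiv h k).tsum_eq]
  refine tsum_congr fun x => ?_
  by_cases hx : SDj y (x : SM d)
  · rw [if_pos hx]
    exact (congrArg (fun t => WS μ (x : SM d) * t) (if_pos hx)).symm
  · rw [if_neg hx]
    exact (congrArg (fun t => WS μ (x : SM d) * t) (if_neg hx)).symm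

section
variable (μ : Measure (Row d)) [IsProbabilityMeasure μ]

/-- The second moment of the truncated sum at height `M * j`. -/
private noncomputable def saE (h : Site d →+ ℤ) (M R j : ℕ) : ℝ≥0∞ :=
  ∫⁻ ω, (∑' l : UR h (M * j) R, qw ω (-dsp l.1) l.1) ^ 2 ∂(envLaw μ)

private lemma sa_source (h : Site d →+ ℤ) (y : Site d) (c₀ : ℝ≥0∞) (M J R N : ℕ) :
    ∑ j ∈ Finset.range J, saE μ h M R j * (c₀ * DS μ h y (N - M * j - M)) =
      ∑' s : Sr h y M J R N, sw μ c₀ s := by
  rw [Finset.sum_range, ENNReal.tsum_sigma', tsum_fintype]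
  refine Finset.sum_congr rfl fun j _ => ?_
  rw [saE, lintegral_sq, ← ENNReal.tsum_mul_right, sa_DS_eq]
  refine Eq.trans ?_ (ENNReal.tsum_prod'
    (f := fun b : (UR h (M * j) R × UR h (M * j) R) × DD h y (N - M * j - M) =>
      sw μ c₀ (⟨j, b⟩ : Sr h y M J R N))).symm
  refine tsum_congr fun p => ?_
  simp only [sw]
  rw [ENNReal.tsum_mul_left, ENNReal.tsum_mul_left]

private lemma sa_star {h : Site d →+ ℤ} {b : ℝ≥0∞} (hb : ∑' j, ∑' x : (upG h).I j,
      wt μ x.1.toList * ((exits 0 x.1.toList).card : ℝ≥0∞) = b) {y : Site d} {M : ℕ}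
    (hM : 0 < M) {α α' : List (Dir d)} (hα : α ∈ Up h M) (hα' : α' ∈ Up h M)
    (hd : dsp α' = dsp α + y) (J R k : ℕ) :
    ∑ j ∈ Finset.range J, saE μ h M R j *
        ((∫⁻ ω, qw ω 0 α * qw ω 0 α' ∂(envLaw μ)) * DS μ h y (M * J + k - M * j - M)) ≤
      b * (R + 1) := by
  rw [sa_source]
  exact (source_le_target μ hM hα hα' hd).trans (tsum_tw μ hb _ R)

private lemma sa_cover (D : ℕ → ℝ≥0∞) {M j J n : ℕ} (hM : 0 < M) (hj : j < J) :
    ∑ m ∈ Finset.range n, D m ≤ ∑ N ∈ Finset.range (n + M * J),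
      if j < min J (N / M) then D (N - M * j - M) else 0 := by
  rw [← Finset.sum_filter]
  have h1 : M * j + M ≤ M * J := by
    rw [← Nat.mul_succ]
    exact Nat.mul_le_mul_left M hj
  calc ∑ m ∈ Finset.range n, D m
      = ∑ N ∈ (Finset.range n).image (fun m => M * j + M + m), D (N - M * j - M) := by
        rw [Finset.sum_image (fun a _ b _ hab => by simpa using hab)]
        refine Finset.sum_congr rfl fun m _ => ?_
        congr 1
        omega
    _ ≤ _ := by
        refine Finset.sum_le_sum_of_subset ?_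
        intro N hN
        rw [Finset.mem_image] at hN
        obtain ⟨m, hm, rfl⟩ := hN
        rw [Finset.mem_range] at hm
        rw [Finset.mem_filter, Finset.mem_range, lt_min_iff]
        refine ⟨by omega, hj, ?_⟩
        rw [Nat.lt_iff_add_one_le, Nat.le_div_iff_mul_le hM]
        have : (j + 1) * M = M * j + M := by ring
        omega

/-- The sum of the second moments times the number of avoiding pairs of low height. -/
theorem second_avg (hμ : Elliptic μ) {h : Site d →+ ℤ} (hsurj : Function.Surjective h)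
    {b : ℝ≥0∞} (hb : ∑' j, ∑' x : (upG h).I j,
      wt μ x.1.toList * ((exits 0 x.1.toList).card : ℝ≥0∞) = b) (hbt : b ≠ ∞)
    {y : Site d} (hy : h y = 0) :
    ∃ (M : ℕ) (C : ℝ≥0∞), 0 < M ∧ C ≠ ∞ ∧ ∀ (J R n : ℕ),
      (∑ j ∈ Finset.range J, ∫⁻ ω, (∑' l : {l : List (Dir d) // l ∈ Up h (M * j) ∧
        (exits 0 l).card ≤ R}, qw ω (-dsp l.1) l.1) ^ 2 ∂(envLaw μ)) *
        ∑ m ∈ Finset.range n, DS μ h y m ≤ C * (n + M * J) * (R + 1) := by
  obtain ⟨L, hL⟩ := exists_bound h
  obtain ⟨M, hM⟩ : ∃ M : ℕ, M = 2 * L + 1 := ⟨_, rfl⟩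
  have hM0 : 0 < M := by omega
  obtain ⟨y₁, hy₁⟩ := hsurj (M : ℤ)
  obtain ⟨α, hα, hαd⟩ := exists_up hsurj hL (k := M) (by omega) hy₁
  obtain ⟨α', hα', hαd'⟩ := exists_up hsurj hL (k := M) (y := y₁ + y) (by omega)
    (by rw [map_add, hy₁, hy, add_zero])
  have hd : dsp α' = dsp α + y := by rw [hαd', hαd]
  have hc₀ := pair_ne_zero μ hμ 0 0 α α'
  have hstar := fun J R k => sa_star μ hb hM0 hα hα' hd J R k
  set c₀ := ∫⁻ ω, qw ω 0 α * qw ω 0 α' ∂(envLaw μ) with hc₀def
  refine ⟨M, b / c₀, hM0, ENNReal.div_ne_top hbt hc₀, fun J R n => ?_⟩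
  change (∑ j ∈ Finset.range J, saE μ h M R j) * _ ≤ _
  -- the bound for one level
  have h1 : ∀ N : ℕ, ∑ j ∈ Finset.range J,
      (if j < min J (N / M) then saE μ h M R j * (c₀ * DS μ h y (N - M * j - M)) else 0) ≤
        b * (R + 1) := by
    intro N
    have h2 := hstar (min J (N / M)) R (N - M * min J (N / M))
    have h3 : M * min J (N / M) + (N - M * min J (N / M)) = N := by
      have : M * min J (N / M) ≤ N :=
        (Nat.mul_le_mul_left M (min_le_right _ _)).trans (Nat.mul_div_le N M)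
      omega
    rw [h3] at h2
    refine le_trans (le_of_eq ?_) h2
    rw [← Finset.sum_filter]
    refine Finset.sum_congr ?_ fun _ _ => rfl
    ext j
    rw [Finset.mem_filter, Finset.mem_range, Finset.mem_range, lt_min_iff]
    tauto
  have h4 : (∑ j ∈ Finset.range J, saE μ h M R j) * (∑ m ∈ Finset.range n, DS μ h y m) * c₀ ≤
      (n + M * J) * (b * (R + 1)) := by
    calc (∑ j ∈ Finset.range J, saE μ h M R j) * (∑ m ∈ Finset.range n, DS μ h y m) * c₀
        = ∑ j ∈ Finset.range J, saE μ h M R j * c₀ * (∑ m ∈ Finset.range n, DS μ h y m) := by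
          rw [Finset.sum_mul, Finset.sum_mul]
          exact Finset.sum_congr rfl fun j _ => by ring
      _ ≤ ∑ j ∈ Finset.range J, saE μ h M R j * c₀ * ∑ N ∈ Finset.range (n + M * J),
            (if j < min J (N / M) then DS μ h y (N - M * j - M) else 0) := by
          refine Finset.sum_le_sum fun j hj => ?_
          gcongr
          exact sa_cover _ hM0 (Finset.mem_range.1 hj)
      _ = ∑ N ∈ Finset.range (n + M * J), ∑ j ∈ Finset.range J,
            (if j < min J (N / M) then saE μ h M R j * (c₀ * DS μ h y (N - M * j - M)) else 0) := by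
          rw [Finset.sum_comm]
          refine Finset.sum_congr rfl fun j _ => ?_
          rw [Finset.mul_sum]
          refine Finset.sum_congr rfl fun N _ => ?_
          split_ifs
          · ring
          · rw [mul_zero]
      _ ≤ ∑ N ∈ Finset.range (n + M * J), b * (R + 1) := Finset.sum_le_sum fun N _ => h1 N
      _ = (n + M * J) * (b * (R + 1)) := by
          rw [Finset.sum_const, Finset.card_range, nsmul_eq_mul]
          push_cast
          ring
  have h5 : ((n : ℝ≥0∞) + M * J) * (b * (R + 1)) ≠ ∞ := by finiteness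
  refine ((ENNReal.le_div_iff_mul_le (Or.inl hc₀) (Or.inr h5)).2 h4).trans (le_of_eq ?_)
  rw [div_eq_mul_inv, div_eq_mul_inv]
  ring

end

end Vale.Agent.P147.D3
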